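import Vale.Agent.P237.All.Finite.Range
import Vale.Agent.P237.All.High.Small

/-! P237, finitely many dimensions: the top of the range of excesses in dimensions `4..7`, from the
high regime with the exact exponential. -/

noncomputable section

open Real Finset

namespace Vale.Agent.P237.All.Finite

open Transport Transport.High Transport.Finite

/-- The high regime from a lower bound on the exponential and the numeric budget. -/
theorem rangeOk_highAt {q : ℕ} (hq : 1 ≤ q) {a b : ℚ} {C : ℝ} (hC0 : 0 ≤ C)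
    (ha : (0 : ℚ) ≤ a)
    (hC : C + 1 ≤ ∑ i ∈ range 6,
      (2 * (a : ℝ) / ((((q + 1 : ℕ) : ℝ) + 1) * (((q + 1 : ℕ) : ℝ) + 2))) ^ i / i.factorial)
    (hneg : ∫ y in (0 : ℝ)..1, highPiAt (q + 1) C y < 0) : RangeOk (q + 1) a b := by
  intro k h0 _
  have ha' : (0 : ℝ) ≤ a := by exact_mod_cast ha
  have hk : 0 ≤ k := ha'.trans h0
  refine (hasCert_highAt q hq (k := k) (C := C) ?_ hC0 hneg _ le_rfl).hasBound (by omega)
  have hx : (0 : ℝ) ≤ 2 * (a : ℝ) / ((((q + 1 : ℕ) : ℝ) + 1) * (((q + 1 : ℕ) : ℝ) + 2)) := by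
    positivity
  have h1 := hC.trans (sum_le_exp_of_nonneg hx 6)
  have h2 : exp (2 * (a : ℝ) / ((((q + 1 : ℕ) : ℝ) + 1) * (((q + 1 : ℕ) : ℝ) + 2))) ≤
      exp (2 * k / ((((q + 1 : ℕ) : ℝ) + 1) * (((q + 1 : ℕ) : ℝ) + 2))) :=
    exp_le_exp.2 (by gcongr)
  linarith

/-- `m = 4`, excess at least `10`. -/
theorem rangeOk_high_four : RangeOk 3 10 17 :=
  rangeOk_highAt (q := 2) (C := 171 / 100) (by norm_num) (by norm_num) (by norm_num)
    (by norm_num [sum_range_succ, Nat.factorial])
    (highPiAt_neg (by norm_num) (by norm_num [pC, eC, sC, lamC, cC, aC, kapC]))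

/-- `m = 5`, excess at least `23/2`. -/
theorem rangeOk_high_five : RangeOk 4 (23 / 2) 17 :=
  rangeOk_highAt (q := 3) (C := 114 / 100) (by norm_num) (by norm_num) (by norm_num)
    (by norm_num [sum_range_succ, Nat.factorial])
    (highPiAt_neg (by norm_num) (by norm_num [pC, eC, sC, lamC, cC, aC, kapC]))

/-- `m = 6`, excess at least `25/2`. -/
theorem rangeOk_high_six : RangeOk 5 (25 / 2) 17 :=
  rangeOk_highAt (q := 4) (C := 81 / 100) (by norm_num) (by norm_num) (by norm_num)
    (by norm_num [sum_range_succ, Nat.factorial])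
    (highPiAt_neg (by norm_num) (by norm_num [pC, eC, sC, lamC, cC, aC, kapC]))

/-- `m = 7`, excess at least `27/2`. -/
theorem rangeOk_high_seven : RangeOk 6 (27 / 2) 17 :=
  rangeOk_highAt (q := 5) (C := 61 / 100) (by norm_num) (by norm_num) (by norm_num)
    (by norm_num [sum_range_succ, Nat.factorial])
    (highPiAt_neg (by norm_num) (by norm_num [pC, eC, sC, lamC, cC, aC, kapC]))

end Vale.Agent.P237.All.Finite
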