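import Vale.Agent.P237.All.Finite.Entry

/-!
P237, finitely many dimensions: the nonnegative products of the constraints of a region, as packed
contributions to the six coefficients, one constructor each, with the multiplier of degree one in `W`
for products of degree one in the parameters.
-/

noncomputable section

namespace Vale.Agent.P237.All.Finite

open Transport.Finite (Par)

/-- The products of constraints. -/
inductive MI where
  | x
  | hx
  | ta
  | bt
  | one
  | xone
  | fs
  | xta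
  | xbt
  | xh
  | hta
  | hbt
  | line
  | xline
  | ka
  | xka
  | kb
  | xkb
  | zb
  | xzb
  | ab
  | lta
  | ltb
  | hl
  | taU
  | taV
  | fsU
  | fsV
deriving DecidableEq

/-- The products of degree two in the parameters; their multipliers are constants. -/
def MI.quad : MI → Bool
  | .ab => true
  | .lta => true
  | .ltb => true
  | .hl => true
  | _ => false

/-- The packed data of the constraints of a region. -/
structure GC where
  U : ℤ
  u2 : ℤ
  u3 : ℤ
  H : ℤ
  o1 : ℤ
  sl : ℤ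
  D : PK
  DD : PK
  SD : PK
  ZD : PK
  DU : PK
  DDU : PK
  SDU : PK
  ZDU : PK
  o : PK
  al : PK
  bb : PK
  L2 : PK
  lam : PK
  eq : PK
  a : PK
  b : PK
  L : PK

/-- The real constants of the constraints. -/
structure RC where
  H : ℝ
  o1 : ℝ
  c0 : ℝ
  sl : ℝ
  a : ℝ
  b : ℝ
  u : ℝ

/-- The value of the line at `x = τ = 0`. -/
def RC.L (c : RC) (P : Par) : ℝ := P.lam * c.o1 - P.o * c.c0

/-- Adds the product times the packed multiplier `mu`. -/
def MI.acc (C : GC) (mu : PK) (E : Six) : MI → Six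
  | .x => ⟨E.e00,
      E.e01.add (mu.mul ((C.DD.mul C.o).smul C.u3)),
      E.e02,
      E.e11,
      E.e12,
      E.e22⟩
  | .hx => ⟨E.e00.add (mu.mul ((C.DD.mul C.o).smul (C.H * C.u2))),
      E.e01.add (mu.mul ((C.DD.mul C.o).smul (-C.u3))),
      E.e02,
      E.e11,
      E.e12,
      E.e22⟩
  | .ta => ⟨E.e00.add (mu.mul ((C.D.mul C.a).smul (-C.u2))),
      E.e01,
      E.e02.add (mu.mul ((C.DD.mul C.o).smul C.u3)),
      E.e11,
      E.e12,
      E.e22⟩
  | .bt => ⟨E.e00.add (mu.mul ((C.D.mul C.b).smul C.u2)),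
      E.e01,
      E.e02.add (mu.mul ((C.DD.mul C.o).smul (-C.u3))),
      E.e11,
      E.e12,
      E.e22⟩
  | .one => ⟨E.e00.add (mu.mul ((C.SD.mul C.o).smul C.u3)),
      E.e01,
      E.e02.add (mu.mul ((C.ZD.mul C.o).smul (-(2 * C.u3)))),
      E.e11,
      E.e12,
      E.e22.add (mu.mul ((C.ZD.mul C.o).smul (-C.u3)))⟩
  | .xone => ⟨E.e00,
      E.e01.add (mu.mul ((C.SD.mul C.o).smul C.u3)),
      E.e02,
      E.e11,
      E.e12.add (mu.mul ((C.ZD.mul C.o).smul (-(2 * C.u3)))),
      E.e22⟩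
  | .fs => ⟨E.e00.add (mu.mul (((C.SD.mul C.L2).smul (C.o1 * C.o1 * C.U)).sub ((C.SD.mul C.o).smul C.u3))),
      E.e01.add (mu.mul ((C.SD.mul C.L2).smul (2 * C.o1 * C.u2))),
      E.e02.add (mu.mul ((C.ZD.mul C.o).smul (2 * C.u3))),
      E.e11.add (mu.mul ((C.SD.mul C.L2).smul C.u3)),
      E.e12,
      E.e22.add (mu.mul ((C.ZD.mul C.o).smul C.u3))⟩
  | .xta => ⟨E.e00,
      E.e01.add (mu.mul ((C.D.mul C.a).smul (-C.u2))),
      E.e02,
      E.e11,
      E.e12.add (mu.mul ((C.DD.mul C.o).smul C.u3)),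
      E.e22⟩
  | .xbt => ⟨E.e00,
      E.e01.add (mu.mul ((C.D.mul C.b).smul C.u2)),
      E.e02,
      E.e11,
      E.e12.add (mu.mul ((C.DD.mul C.o).smul (-C.u3))),
      E.e22⟩
  | .xh => ⟨E.e00,
      E.e01.add (mu.mul ((C.DD.mul C.o).smul (C.H * C.u2))),
      E.e02,
      E.e11.add (mu.mul ((C.DD.mul C.o).smul (-C.u3))),
      E.e12,
      E.e22⟩
  | .hta => ⟨E.e00.add (mu.mul ((C.D.mul C.a).smul (-(C.H * C.U)))),
      E.e01.add (mu.mul ((C.D.mul C.a).smul C.u2)),
      E.e02.add (mu.mul ((C.DD.mul C.o).smul (C.H * C.u2))),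
      E.e11,
      E.e12.add (mu.mul ((C.DD.mul C.o).smul (-C.u3))),
      E.e22⟩
  | .hbt => ⟨E.e00.add (mu.mul ((C.D.mul C.b).smul (C.H * C.U))),
      E.e01.add (mu.mul ((C.D.mul C.b).smul (-C.u2))),
      E.e02.add (mu.mul ((C.DD.mul C.o).smul (-(C.H * C.u2)))),
      E.e11,
      E.e12.add (mu.mul ((C.DD.mul C.o).smul C.u3)),
      E.e22⟩
  | .line => ⟨E.e00.add (mu.mul ((C.DD.mul C.L).smul C.u2)),
      E.e01.add (mu.mul ((C.DD.mul C.lam).smul C.u3)),
      E.e02.add (mu.mul ((C.DD.mul C.o).smul (-(C.sl * C.u2)))),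
      E.e11,
      E.e12,
      E.e22⟩
  | .xline => ⟨E.e00,
      E.e01.add (mu.mul ((C.DD.mul C.L).smul C.u2)),
      E.e02,
      E.e11.add (mu.mul ((C.DD.mul C.lam).smul C.u3)),
      E.e12.add (mu.mul ((C.DD.mul C.o).smul (-(C.sl * C.u2)))),
      E.e22⟩
  | .ka => ⟨E.e00.add (mu.mul ((C.SD.mul C.al).smul C.u3)),
      E.e01,
      E.e02.add (mu.mul ((C.DD.mul C.o).smul C.u3)),
      E.e11,
      E.e12,
      E.e22⟩
  | .xka => ⟨E.e00,
      E.e01.add (mu.mul ((C.SD.mul C.al).smul C.u3)),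
      E.e02,
      E.e11,
      E.e12.add (mu.mul ((C.DD.mul C.o).smul C.u3)),
      E.e22⟩
  | .kb => ⟨E.e00.add (mu.mul ((C.DD.mul C.bb).smul C.u3)),
      E.e01,
      E.e02.add (mu.mul ((C.DD.mul C.o).smul (-C.u3))),
      E.e11,
      E.e12,
      E.e22⟩
  | .xkb => ⟨E.e00,
      E.e01.add (mu.mul ((C.DD.mul C.bb).smul C.u3)),
      E.e02,
      E.e11,
      E.e12.add (mu.mul ((C.DD.mul C.o).smul (-C.u3))),
      E.e22⟩
  | .zb => ⟨E.e00.add (mu.mul ((C.SD.mul C.eq).smul C.u3)),
      E.e01,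
      E.e02.add (mu.mul ((C.ZD.mul C.o).smul C.u3)),
      E.e11,
      E.e12,
      E.e22⟩
  | .xzb => ⟨E.e00,
      E.e01.add (mu.mul ((C.SD.mul C.eq).smul C.u3)),
      E.e02,
      E.e11,
      E.e12.add (mu.mul ((C.ZD.mul C.o).smul C.u3)),
      E.e22⟩
  | .ab => ⟨E.e00.add (mu.mul ((C.a.mul C.b).smul (-1))),
      E.e01,
      E.e02.add (mu.mul (((C.D.mul C.o).mul (C.a.add C.b)).smul C.U)),
      E.e11,
      E.e12,
      E.e22.add (mu.mul (((C.DD.mul C.o).mul C.o).smul (-C.u2)))⟩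
  | .lta => ⟨E.e00.add (mu.mul (((C.D.mul C.a).mul C.L).smul (-1))),
      E.e01.add (mu.mul (((C.D.mul C.a).mul C.lam).smul (-C.U))),
      E.e02.add (mu.mul ((((C.DD.mul C.o).mul C.L).smul C.U).add (((C.D.mul C.a).mul C.o).smul C.sl))),
      E.e11,
      E.e12.add (mu.mul (((C.DD.mul C.o).mul C.lam).smul C.u2)),
      E.e22.add (mu.mul (((C.DD.mul C.o).mul C.o).smul (-(C.sl * C.U))))⟩
  | .ltb => ⟨E.e00.add (mu.mul ((C.D.mul C.b).mul C.L)),
      E.e01.add (mu.mul (((C.D.mul C.b).mul C.lam).smul C.U)),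
      E.e02.add (mu.mul ((((C.DD.mul C.o).mul C.L).smul (-C.U)).sub (((C.D.mul C.b).mul C.o).smul C.sl))),
      E.e11,
      E.e12.add (mu.mul (((C.DD.mul C.o).mul C.lam).smul (-C.u2))),
      E.e22.add (mu.mul (((C.DD.mul C.o).mul C.o).smul (C.sl * C.U)))⟩
  | .hl => ⟨E.e00.add (mu.mul (((C.DD.mul C.o).mul C.L).smul C.H)),
      E.e01.add (mu.mul ((((C.DD.mul C.o).mul C.lam).smul (C.H * C.U)).sub (((C.DD.mul C.o).mul C.L).smul C.U))),
      E.e02.add (mu.mul (((C.DD.mul C.o).mul C.o).smul (-(C.H * C.sl)))),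
      E.e11.add (mu.mul (((C.DD.mul C.o).mul C.lam).smul (-C.u2))),
      E.e12.add (mu.mul (((C.DD.mul C.o).mul C.o).smul (C.sl * C.U))),
      E.e22⟩
  | .taU => ⟨E.e00.add (mu.mul (((C.DU).mul C.a).smul (-C.u2))),
      E.e01,
      E.e02.add (mu.mul (((C.DDU).mul C.o).smul C.u3)),
      E.e11,
      E.e12,
      E.e22⟩
  | .taV => ⟨E.e00.add (mu.mul (((C.D.sub C.DU).mul C.a).smul (-C.u2))),
      E.e01,
      E.e02.add (mu.mul (((C.DD.sub C.DDU).mul C.o).smul C.u3)),
      E.e11,
      E.e12,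
      E.e22⟩
  | .fsU => ⟨E.e00.add (mu.mul ((((C.SDU).mul C.L2).smul (C.o1 * C.o1 * C.U)).sub (((C.SDU).mul C.o).smul C.u3))),
      E.e01.add (mu.mul (((C.SDU).mul C.L2).smul (2 * C.o1 * C.u2))),
      E.e02.add (mu.mul (((C.ZDU).mul C.o).smul (2 * C.u3))),
      E.e11.add (mu.mul (((C.SDU).mul C.L2).smul C.u3)),
      E.e12,
      E.e22.add (mu.mul (((C.ZDU).mul C.o).smul C.u3))⟩
  | .fsV => ⟨E.e00.add (mu.mul ((((C.SD.sub C.SDU).mul C.L2).smul (C.o1 * C.o1 * C.U)).sub (((C.SD.sub C.SDU).mul C.o).smul C.u3))),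
      E.e01.add (mu.mul (((C.SD.sub C.SDU).mul C.L2).smul (2 * C.o1 * C.u2))),
      E.e02.add (mu.mul (((C.ZD.sub C.ZDU).mul C.o).smul (2 * C.u3))),
      E.e11.add (mu.mul (((C.SD.sub C.SDU).mul C.L2).smul C.u3)),
      E.e12,
      E.e22.add (mu.mul (((C.ZD.sub C.ZDU).mul C.o).smul C.u3))⟩

/-- The coefficient `e00` of a product. -/
def MI.r0 (P : Par) (z : ℝ) (c : RC) : MI → ℝ
  | .hx => P.o * c.H
  | .ta => -c.a
  | .bt => c.b
  | .one => (1 - z) * P.o
  | .fs => (1 - z) * P.L2 * c.o1 ^ 2 - (1 - z) * P.o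
  | .hta => -(c.a * c.H)
  | .hbt => c.b * c.H
  | .line => c.L P
  | .ka => (1 - z) * P.al
  | .kb => P.bb
  | .zb => (1 - z) * P.eq
  | .ab => -(c.a * c.b)
  | .lta => -(c.a * c.L P)
  | .ltb => c.b * c.L P
  | .hl => P.o * c.L P * c.H
  | .taU => -(c.u * c.a)
  | .taV => -((1 - c.u) * c.a)
  | .fsU => c.u * ((1 - z) * P.L2 * c.o1 ^ 2 - (1 - z) * P.o)
  | .fsV => (1 - c.u) * ((1 - z) * P.L2 * c.o1 ^ 2 - (1 - z) * P.o)
  | _ => 0

/-- The coefficient `e01` of a product. -/
def MI.r1 (P : Par) (z : ℝ) (c : RC) : MI → ℝ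
  | .x => P.o
  | .hx => -P.o
  | .xone => (1 - z) * P.o
  | .fs => 2 * c.o1 * ((1 - z) * P.L2)
  | .xta => -c.a
  | .xbt => c.b
  | .xh => P.o * c.H
  | .hta => c.a
  | .hbt => -c.b
  | .line => P.lam
  | .xline => c.L P
  | .xka => (1 - z) * P.al
  | .xkb => P.bb
  | .xzb => (1 - z) * P.eq
  | .lta => -(c.a * P.lam)
  | .ltb => c.b * P.lam
  | .hl => P.o * P.lam * c.H - P.o * c.L P
  | .fsU => c.u * (2 * c.o1 * ((1 - z) * P.L2))
  | .fsV => (1 - c.u) * (2 * c.o1 * ((1 - z) * P.L2))
  | _ => 0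

/-- The coefficient `e02` of a product. -/
def MI.r2 (P : Par) (z : ℝ) (c : RC) : MI → ℝ
  | .ta => P.o
  | .bt => -P.o
  | .one => -(2 * (z * P.o))
  | .fs => 2 * (z * P.o)
  | .hta => P.o * c.H
  | .hbt => -(P.o * c.H)
  | .line => -(P.o * c.sl)
  | .ka => P.o
  | .kb => -P.o
  | .zb => z * P.o
  | .ab => P.o * (c.a + c.b)
  | .lta => P.o * c.L P + c.a * P.o * c.sl
  | .ltb => -(P.o * c.L P) - c.b * P.o * c.sl
  | .hl => -(P.o * P.o * c.H * c.sl)
  | .taU => c.u * P.o
  | .taV => (1 - c.u) * P.o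
  | .fsU => c.u * (2 * (z * P.o))
  | .fsV => (1 - c.u) * (2 * (z * P.o))
  | _ => 0

/-- The coefficient `e11` of a product. -/
def MI.r3 (P : Par) (z : ℝ) (c : RC) : MI → ℝ
  | .fs => (1 - z) * P.L2
  | .xh => -P.o
  | .xline => P.lam
  | .hl => -(P.o * P.lam)
  | .fsU => c.u * ((1 - z) * P.L2)
  | .fsV => (1 - c.u) * ((1 - z) * P.L2)
  | _ => 0

/-- The coefficient `e12` of a product. -/
def MI.r4 (P : Par) (z : ℝ) (c : RC) : MI → ℝ
  | .xone => -(2 * (z * P.o))
  | .xta => P.o
  | .xbt => -P.o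
  | .hta => -P.o
  | .hbt => P.o
  | .xline => -(P.o * c.sl)
  | .xka => P.o
  | .xkb => -P.o
  | .xzb => z * P.o
  | .lta => P.o * P.lam
  | .ltb => -(P.o * P.lam)
  | .hl => P.o * P.o * c.sl
  | _ => 0

/-- The coefficient `e22` of a product. -/
def MI.r5 (P : Par) (z : ℝ) (c : RC) : MI → ℝ
  | .one => -(z * P.o)
  | .fs => z * P.o
  | .ab => -(P.o * P.o)
  | .lta => -(P.o * P.o * c.sl)
  | .ltb => P.o * P.o * c.sl
  | .fsU => c.u * (z * P.o)
  | .fsV => (1 - c.u) * (z * P.o)
  | _ => 0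

/-- What the packed data represent. -/
structure GC.Sem (B M : ℕ) (C : GC) (d z : ℝ → ℝ) (P : ℝ → ℝ → Par) (c : ℝ → ℝ → RC) : Prop where
  hU : C.u2 = C.U * C.U ∧ C.u3 = C.U * C.U * C.U
  hc : ∀ X W, (C.H : ℝ) = C.U * (c X W).H ∧ (C.o1 : ℝ) = C.U * (c X W).o1 ∧
    (C.sl : ℝ) = C.U * (c X W).sl
  hD : Rep B M 0 C.D fun X _ => d X
  hDD : Rep B M 0 C.DD fun X _ => d X ^ 2
  hSD : Rep B M 0 C.SD fun X _ => d X ^ 2 * (1 - z X)
  hZD : Rep B M 0 C.ZD fun X _ => d X ^ 2 * z X
  hDU : Rep B M 0 C.DU fun X W => d X * (c X W).u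
  hDDU : Rep B M 0 C.DDU fun X W => d X ^ 2 * (c X W).u
  hSDU : Rep B M 0 C.SDU fun X W => d X ^ 2 * (1 - z X) * (c X W).u
  hZDU : Rep B M 0 C.ZDU fun X W => d X ^ 2 * z X * (c X W).u
  ho : Rep B M 1 C.o fun X W => (C.U : ℝ) * (P X W).o
  hal : Rep B M 1 C.al fun X W => (C.U : ℝ) * (P X W).al
  hbb : Rep B M 1 C.bb fun X W => (C.U : ℝ) * (P X W).bb
  hL2 : Rep B M 1 C.L2 fun X W => (C.U : ℝ) * (P X W).L2
  hlam : Rep B M 1 C.lam fun X W => (C.U : ℝ) * (P X W).lam
  heq : Rep B M 1 C.eq fun X W => (C.U : ℝ) * (P X W).eq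
  ha : Rep B M 1 C.a fun X W => (C.U : ℝ) ^ 2 * d X * (c X W).a
  hb : Rep B M 1 C.b fun X W => (C.U : ℝ) ^ 2 * d X * (c X W).b
  hL : Rep B M 1 C.L fun X W => (C.U : ℝ) ^ 2 * (c X W).L (P X W)

variable {B M : ℕ} {C : GC} {d z : ℝ → ℝ} {P : ℝ → ℝ → Par} {c : ℝ → ℝ → RC} {mu : PK} {E : Six}

theorem MI.acc0_rep (hC : C.Sem B M d z P c) (i : MI) {m : ℝ → ℝ} {j : ℕ}
    (hm : Rep B M j mu fun _ W => (C.U : ℝ) * m W) (hj : j + (if i.quad then 2 else 1) ≤ 2)
    {f : ℝ → ℝ → ℝ} (hE : Rep B M 2 E.e00 f) :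
    Rep B M 2 (i.acc C mu E).e00
      fun X W => f X W + (C.U : ℝ) ^ 5 * d X ^ 2 * (m W * i.r0 (P X W) (z X) (c X W)) := by
  obtain ⟨⟨eU2, eU3⟩, hc, hD, hDD, hSD, hZD, hDU, hDDU, hSDU, hZDU, ho, hal, hbb, hL2, hlam, heq, ha, hb, hL⟩ := hC
  cases i <;>
    simp only [MI.quad, Bool.false_eq_true, if_false, if_true] at hj <;>
    simp only [MI.acc, MI.r0] <;>
    first
      | exact hE.congr fun X W => by ring
      | (refine ((hE.add (hm.mul (by
          repeat first
            | exact hD | exact hDD | exact hSD | exact hZD | exact hDU | exact hDDU | exact hSDU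
            | exact hZDU | exact ho | exact hal | exact hbb
            | exact hL2 | exact hlam | exact heq | exact ha | exact hb | exact hL
            | with_reducible apply Rep.add | with_reducible apply Rep.sub
            | with_reducible apply Rep.smul | with_reducible apply Rep.mul))).mono (by simp; omega)).congr
            fun X W => ?_
         obtain ⟨eH, eo, es⟩ := hc X W
         try simp only [eU2, eU3]
         push_cast
         try simp only [eH, eo, es]
         ring)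

theorem MI.acc1_rep (hC : C.Sem B M d z P c) (i : MI) {m : ℝ → ℝ} {j : ℕ}
    (hm : Rep B M j mu fun _ W => (C.U : ℝ) * m W) (hj : j + (if i.quad then 2 else 1) ≤ 2)
    {f : ℝ → ℝ → ℝ} (hE : Rep B M 2 E.e01 f) :
    Rep B M 2 (i.acc C mu E).e01
      fun X W => f X W + (C.U : ℝ) ^ 5 * d X ^ 2 * (m W * i.r1 (P X W) (z X) (c X W)) := by
  obtain ⟨⟨eU2, eU3⟩, hc, hD, hDD, hSD, hZD, hDU, hDDU, hSDU, hZDU, ho, hal, hbb, hL2, hlam, heq, ha, hb, hL⟩ := hC
  cases i <;>
    simp only [MI.quad, Bool.false_eq_true, if_false, if_true] at hj <;>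
    simp only [MI.acc, MI.r1] <;>
    first
      | exact hE.congr fun X W => by ring
      | (refine ((hE.add (hm.mul (by
          repeat first
            | exact hD | exact hDD | exact hSD | exact hZD | exact hDU | exact hDDU | exact hSDU
            | exact hZDU | exact ho | exact hal | exact hbb
            | exact hL2 | exact hlam | exact heq | exact ha | exact hb | exact hL
            | with_reducible apply Rep.add | with_reducible apply Rep.sub
            | with_reducible apply Rep.smul | with_reducible apply Rep.mul))).mono (by simp; omega)).congr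
            fun X W => ?_
         obtain ⟨eH, eo, es⟩ := hc X W
         try simp only [eU2, eU3]
         push_cast
         try simp only [eH, eo, es]
         ring)

theorem MI.acc2_rep (hC : C.Sem B M d z P c) (i : MI) {m : ℝ → ℝ} {j : ℕ}
    (hm : Rep B M j mu fun _ W => (C.U : ℝ) * m W) (hj : j + (if i.quad then 2 else 1) ≤ 2)
    {f : ℝ → ℝ → ℝ} (hE : Rep B M 2 E.e02 f) :
    Rep B M 2 (i.acc C mu E).e02
      fun X W => f X W + (C.U : ℝ) ^ 5 * d X ^ 2 * (m W * i.r2 (P X W) (z X) (c X W)) := by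
  obtain ⟨⟨eU2, eU3⟩, hc, hD, hDD, hSD, hZD, hDU, hDDU, hSDU, hZDU, ho, hal, hbb, hL2, hlam, heq, ha, hb, hL⟩ := hC
  cases i <;>
    simp only [MI.quad, Bool.false_eq_true, if_false, if_true] at hj <;>
    simp only [MI.acc, MI.r2] <;>
    first
      | exact hE.congr fun X W => by ring
      | (refine ((hE.add (hm.mul (by
          repeat first
            | exact hD | exact hDD | exact hSD | exact hZD | exact hDU | exact hDDU | exact hSDU
            | exact hZDU | exact ho | exact hal | exact hbb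
            | exact hL2 | exact hlam | exact heq | exact ha | exact hb | exact hL
            | with_reducible apply Rep.add | with_reducible apply Rep.sub
            | with_reducible apply Rep.smul | with_reducible apply Rep.mul))).mono (by simp; omega)).congr
            fun X W => ?_
         obtain ⟨eH, eo, es⟩ := hc X W
         try simp only [eU2, eU3]
         push_cast
         try simp only [eH, eo, es]
         ring)

theorem MI.acc3_rep (hC : C.Sem B M d z P c) (i : MI) {m : ℝ → ℝ} {j : ℕ}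
    (hm : Rep B M j mu fun _ W => (C.U : ℝ) * m W) (hj : j + (if i.quad then 2 else 1) ≤ 2)
    {f : ℝ → ℝ → ℝ} (hE : Rep B M 2 E.e11 f) :
    Rep B M 2 (i.acc C mu E).e11
      fun X W => f X W + (C.U : ℝ) ^ 5 * d X ^ 2 * (m W * i.r3 (P X W) (z X) (c X W)) := by
  obtain ⟨⟨eU2, eU3⟩, hc, hD, hDD, hSD, hZD, hDU, hDDU, hSDU, hZDU, ho, hal, hbb, hL2, hlam, heq, ha, hb, hL⟩ := hC
  cases i <;>
    simp only [MI.quad, Bool.false_eq_true, if_false, if_true] at hj <;>
    simp only [MI.acc, MI.r3] <;>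
    first
      | exact hE.congr fun X W => by ring
      | (refine ((hE.add (hm.mul (by
          repeat first
            | exact hD | exact hDD | exact hSD | exact hZD | exact hDU | exact hDDU | exact hSDU
            | exact hZDU | exact ho | exact hal | exact hbb
            | exact hL2 | exact hlam | exact heq | exact ha | exact hb | exact hL
            | with_reducible apply Rep.add | with_reducible apply Rep.sub
            | with_reducible apply Rep.smul | with_reducible apply Rep.mul))).mono (by simp; omega)).congr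
            fun X W => ?_
         obtain ⟨eH, eo, es⟩ := hc X W
         try simp only [eU2, eU3]
         push_cast
         try simp only [eH, eo, es]
         ring)

theorem MI.acc4_rep (hC : C.Sem B M d z P c) (i : MI) {m : ℝ → ℝ} {j : ℕ}
    (hm : Rep B M j mu fun _ W => (C.U : ℝ) * m W) (hj : j + (if i.quad then 2 else 1) ≤ 2)
    {f : ℝ → ℝ → ℝ} (hE : Rep B M 2 E.e12 f) :
    Rep B M 2 (i.acc C mu E).e12
      fun X W => f X W + (C.U : ℝ) ^ 5 * d X ^ 2 * (m W * i.r4 (P X W) (z X) (c X W)) := by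
  obtain ⟨⟨eU2, eU3⟩, hc, hD, hDD, hSD, hZD, hDU, hDDU, hSDU, hZDU, ho, hal, hbb, hL2, hlam, heq, ha, hb, hL⟩ := hC
  cases i <;>
    simp only [MI.quad, Bool.false_eq_true, if_false, if_true] at hj <;>
    simp only [MI.acc, MI.r4] <;>
    first
      | exact hE.congr fun X W => by ring
      | (refine ((hE.add (hm.mul (by
          repeat first
            | exact hD | exact hDD | exact hSD | exact hZD | exact hDU | exact hDDU | exact hSDU
            | exact hZDU | exact ho | exact hal | exact hbb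
            | exact hL2 | exact hlam | exact heq | exact ha | exact hb | exact hL
            | with_reducible apply Rep.add | with_reducible apply Rep.sub
            | with_reducible apply Rep.smul | with_reducible apply Rep.mul))).mono (by simp; omega)).congr
            fun X W => ?_
         obtain ⟨eH, eo, es⟩ := hc X W
         try simp only [eU2, eU3]
         push_cast
         try simp only [eH, eo, es]
         ring)

theorem MI.acc5_rep (hC : C.Sem B M d z P c) (i : MI) {m : ℝ → ℝ} {j : ℕ}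
    (hm : Rep B M j mu fun _ W => (C.U : ℝ) * m W) (hj : j + (if i.quad then 2 else 1) ≤ 2)
    {f : ℝ → ℝ → ℝ} (hE : Rep B M 2 E.e22 f) :
    Rep B M 2 (i.acc C mu E).e22
      fun X W => f X W + (C.U : ℝ) ^ 5 * d X ^ 2 * (m W * i.r5 (P X W) (z X) (c X W)) := by
  obtain ⟨⟨eU2, eU3⟩, hc, hD, hDD, hSD, hZD, hDU, hDDU, hSDU, hZDU, ho, hal, hbb, hL2, hlam, heq, ha, hb, hL⟩ := hC
  cases i <;>
    simp only [MI.quad, Bool.false_eq_true, if_false, if_true] at hj <;>
    simp only [MI.acc, MI.r5] <;>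
    first
      | exact hE.congr fun X W => by ring
      | (refine ((hE.add (hm.mul (by
          repeat first
            | exact hD | exact hDD | exact hSD | exact hZD | exact hDU | exact hDDU | exact hSDU
            | exact hZDU | exact ho | exact hal | exact hbb
            | exact hL2 | exact hlam | exact heq | exact ha | exact hb | exact hL
            | with_reducible apply Rep.add | with_reducible apply Rep.sub
            | with_reducible apply Rep.smul | with_reducible apply Rep.mul))).mono (by simp; omega)).congr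
            fun X W => ?_
         obtain ⟨eH, eo, es⟩ := hc X W
         try simp only [eU2, eU3]
         push_cast
         try simp only [eH, eo, es]
         ring)

/-- The value of a product at `(x, τ)`. -/
def MI.val (P : Par) (z : ℝ) (c : RC) (x τ : ℝ) (i : MI) : ℝ :=
  i.r0 P z c + i.r1 P z c * x + i.r2 P z c * τ + i.r3 P z c * x ^ 2 + i.r4 P z c * (x * τ) +
    i.r5 P z c * τ ^ 2

/-- The conditions of a product. -/
def MI.needsH : MI → Bool
  | .hx => true
  | .xh => true
  | .hta => true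
  | .hbt => true
  | .hl => true
  | _ => false

/-- The products that use the line. -/
def MI.needsLine : MI → Bool
  | .line => true
  | .xline => true
  | .lta => true
  | .ltb => true
  | .hl => true
  | _ => false

/-- The products that use the back band. -/
def MI.needsBack : MI → Bool
  | .ka => true
  | .xka => true
  | _ => false

/-- Each product is nonnegative on the region. -/
theorem MI.val_nonneg (i : MI) {P : Par} {z : ℝ} {c : RC} {x τ : ℝ} (ho : P.o = 1) (hz : 0 ≤ z)
    (hx : 0 ≤ x) (hH : i.needsH = true → x ≤ c.H) (ha : c.a ≤ τ) (hb : τ ≤ c.b)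
    (hone : 0 ≤ 1 - z - 2 * z * τ - z * τ ^ 2)
    (hS : 0 ≤ P.L2 * (1 - z) * (c.o1 + x) ^ 2 - (1 - z) + 2 * z * τ + z * τ ^ 2)
    (hline : i.needsLine = true → c.c0 + c.sl * τ ≤ P.lam * (c.o1 + x))
    (hka : i.needsBack = true → -P.al * (1 - z) ≤ τ) (hkb : τ ≤ P.bb)
    (hzb : 0 ≤ P.eq * (1 - z) + z * τ) (hu : 0 ≤ c.u ∧ c.u ≤ 1) : 0 ≤ i.val P z c x τ := by
  have a1 := sub_nonneg.2 ha
  have b1 := sub_nonneg.2 hb
  have k1 := sub_nonneg.2 hkb
  have w1 : 0 ≤ 1 - z - 2 * z * τ := by nlinarith [mul_nonneg hz (sq_nonneg τ)]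
  cases i <;> simp only [MI.val, MI.r0, MI.r1, MI.r2, MI.r3, MI.r4, MI.r5, RC.L, ho]
  case x => linear_combination hx
  case hx => linear_combination sub_nonneg.2 (hH rfl)
  case ta => linear_combination a1
  case bt => linear_combination b1
  case one => linear_combination hone
  case xone => linear_combination mul_nonneg hx w1
  case fs => linear_combination hS
  case xta => linear_combination mul_nonneg hx a1
  case xbt => linear_combination mul_nonneg hx b1
  case xh => linear_combination mul_nonneg hx (sub_nonneg.2 (hH rfl))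
  case hta => linear_combination mul_nonneg (sub_nonneg.2 (hH rfl)) a1
  case hbt => linear_combination mul_nonneg (sub_nonneg.2 (hH rfl)) b1
  case line => linear_combination sub_nonneg.2 (hline rfl)
  case xline => linear_combination mul_nonneg hx (sub_nonneg.2 (hline rfl))
  case ka => linear_combination sub_nonneg.2 (hka rfl)
  case xka => linear_combination mul_nonneg hx (sub_nonneg.2 (hka rfl))
  case kb => linear_combination k1
  case xkb => linear_combination mul_nonneg hx k1
  case zb => linear_combination hzb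
  case xzb => linear_combination mul_nonneg hx hzb
  case ab => linear_combination mul_nonneg a1 b1
  case lta => linear_combination mul_nonneg a1 (sub_nonneg.2 (hline rfl))
  case ltb => linear_combination mul_nonneg b1 (sub_nonneg.2 (hline rfl))
  case hl => linear_combination mul_nonneg (sub_nonneg.2 (hH rfl)) (sub_nonneg.2 (hline rfl))
  case taU => linear_combination mul_nonneg hu.1 a1
  case taV => linear_combination mul_nonneg (sub_nonneg.2 hu.2) a1
  case fsU => linear_combination mul_nonneg hu.1 hS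
  case fsV => linear_combination mul_nonneg (sub_nonneg.2 hu.2) hS

end Vale.Agent.P237.All.Finite
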