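import Mathlib.Tactic

/-!
P237, finitely many dimensions: quadratic Hermite bounds for `r ^ n` from below and `r ^ (-n)` from
above, and the tangents, with division free conditions on rounded coefficients.
-/

namespace Vale.Agent.P237.All.Finite

/-- The second divided difference of `r ^ (n + 1)` at a double node `b`. -/
def phi (b : ℝ) : ℕ → ℝ → ℝ
  | 0, _ => 0
  | n + 1, r => r * phi b n r + ((n : ℝ) + 1) * b ^ n

theorem phi_eq (b : ℝ) : ∀ (n : ℕ) (r : ℝ),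
    r ^ (n + 1) - ((n : ℝ) + 1) * r * b ^ n + n * b ^ (n + 1) = (r - b) ^ 2 * phi b n r
  | 0, r => by simp [phi]
  | n + 1, r => by
    have := phi_eq b n r
    simp only [phi]
    push_cast
    linear_combination r * this

theorem phi_nonneg {b : ℝ} (hb : 0 ≤ b) : ∀ (n : ℕ) {r : ℝ}, 0 ≤ r → 0 ≤ phi b n r
  | 0, _, _ => le_rfl
  | n + 1, r, hr => by
    have := phi_nonneg hb n hr
    simp only [phi]; positivity

theorem phi_mono {b : ℝ} (hb : 0 ≤ b) : ∀ (n : ℕ) {a r : ℝ}, 0 ≤ a → a ≤ r → phi b n a ≤ phi b n r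
  | 0, _, _, _, _ => le_rfl
  | n + 1, a, r, ha, har => by
    simp only [phi]
    exact add_le_add (mul_le_mul har (phi_mono hb n ha har) (phi_nonneg hb n ha) (ha.trans har)) le_rfl

/-- The second divided difference of `r ^ (-n)` at a double node `b`. -/
noncomputable def psi (b : ℝ) : ℕ → ℝ → ℝ
  | 0, _ => 0
  | n + 1, r => (psi b n r + ((n : ℝ) + 1) / b ^ (n + 2)) / r

theorem psi_eq {b : ℝ} (hb : 0 < b) : ∀ (n : ℕ) {r : ℝ}, 0 < r →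
    (r ^ n)⁻¹ - (b ^ n)⁻¹ + n * (r - b) / b ^ (n + 1) = (r - b) ^ 2 * psi b n r
  | 0, _, _ => by simp [psi]
  | n + 1, r, hr => by
    have := psi_eq hb n hr
    have hr0 := hr.ne'
    have hb0 := hb.ne'
    simp only [psi]
    rw [mul_div_assoc', mul_add, ← this]
    push_cast
    field_simp
    ring

theorem psi_nonneg {b : ℝ} (hb : 0 < b) : ∀ (n : ℕ) {r : ℝ}, 0 < r → 0 ≤ psi b n r
  | 0, _, _ => le_rfl
  | n + 1, r, hr => by
    have := psi_nonneg hb n hr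
    simp only [psi]; positivity

theorem psi_anti {b : ℝ} (hb : 0 < b) : ∀ (n : ℕ) {a r : ℝ}, 0 < a → a ≤ r → psi b n r ≤ psi b n a
  | 0, _, _, _, _ => le_rfl
  | n + 1, a, r, ha, har => by
    simp only [psi]
    have h0 : 0 ≤ psi b n r + ((n : ℝ) + 1) / b ^ (n + 2) := by
      have := psi_nonneg hb n (ha.trans_le har); positivity
    exact (div_le_div_of_nonneg_left h0 ha har).trans
      (div_le_div_of_nonneg_right (add_le_add (psi_anti hb n ha har) le_rfl) ha.le)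

variable {p : ℕ} {l u δ c0 c1 c2 : ℝ}

/-- The quadratic below `R₁ = r ^ (p + 1) - 1 - (p + 1) δ` for `δ ≥ l`. -/
theorem quad_le_R1 (hl : -1 ≤ l) (hu : l < u) (hx : l ≤ δ)
    (h0 : c0 ≤ (1 + l) ^ (p + 1) - 1 - ((p : ℝ) + 1) * l)
    (h1 : c1 * (u - l) ≤ ((p : ℝ) + 1) * ((1 + u) ^ p - 1) * (u - l) -
      2 * ((1 + l) ^ (p + 1) - (1 + u) ^ (p + 1) + ((p : ℝ) + 1) * (1 + u) ^ p * (u - l)))
    (h2 : c2 * (u - l) ^ 2 ≤
      (1 + l) ^ (p + 1) - (1 + u) ^ (p + 1) + ((p : ℝ) + 1) * (1 + u) ^ p * (u - l)) :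
    c0 + c1 * (δ - l) + c2 * (δ - l) ^ 2 ≤ (1 + δ) ^ (p + 1) - 1 - ((p : ℝ) + 1) * δ := by
  have hb : 0 ≤ 1 + u := by linarith
  have hd : 0 < u - l := sub_pos.2 hu
  have ea := phi_eq (1 + u) p (1 + l)
  have er := phi_eq (1 + u) p (1 + δ)
  set φ := phi (1 + u) p (1 + l) with hφ
  have hN : (1 + l) ^ (p + 1) - (1 + u) ^ (p + 1) + ((p : ℝ) + 1) * (1 + u) ^ p * (u - l) =
      (u - l) ^ 2 * φ := by
    linear_combination ea
  rw [hN] at h1 h2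
  have e1 : c1 ≤ ((p : ℝ) + 1) * ((1 + u) ^ p - 1) - 2 * (u - l) * φ := by
    refine le_of_mul_le_mul_right ?_ hd
    linarith
  have e2 : c2 ≤ φ := le_of_mul_le_mul_right (by linarith) (pow_pos hd 2)
  have h3 := mul_le_mul_of_nonneg_left (phi_mono hb p (by linarith : (0 : ℝ) ≤ 1 + l)
    (by linarith : 1 + l ≤ 1 + δ)) (sq_nonneg (1 + δ - (1 + u)))
  linear_combination h0 + mul_le_mul_of_nonneg_right e1 (sub_nonneg.2 hx) +
    mul_le_mul_of_nonneg_right e2 (sq_nonneg (δ - l)) + h3 - er + ea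

/-- The line below `R₁`. -/
theorem line_le_R1 {v : ℝ} (hl : -1 ≤ l) (hv : -1 ≤ v) (hx : l ≤ δ)
    (h0 : c0 ≤ (1 + v) ^ (p + 1) - 1 - ((p : ℝ) + 1) * v + ((p : ℝ) + 1) * ((1 + v) ^ p - 1) * (l - v))
    (h1 : c1 ≤ ((p : ℝ) + 1) * ((1 + v) ^ p - 1)) :
    c0 + c1 * (δ - l) ≤ (1 + δ) ^ (p + 1) - 1 - ((p : ℝ) + 1) * δ := by
  have er := phi_eq (1 + v) p (1 + δ)
  have hp := phi_nonneg (by linarith : (0 : ℝ) ≤ 1 + v) p (by linarith : (0 : ℝ) ≤ 1 + δ)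
  linear_combination h0 + mul_le_mul_of_nonneg_right h1 (sub_nonneg.2 hx) +
    mul_nonneg (sq_nonneg (1 + δ - (1 + v))) hp - er

/-- The quadratic above `R₂ = r ^ (-p) - 1 + p δ` for `δ ≥ l`. -/
theorem R2_le_quad (hl : -1 < l) (hu : l < u) (hx : l ≤ δ)
    (h0 : ((1 + l) ^ p)⁻¹ - 1 + (p : ℝ) * l ≤ c0)
    (h1 : ((p : ℝ) - p / (1 + u) ^ (p + 1)) * (u - l) -
      2 * (((1 + l) ^ p)⁻¹ - ((1 + u) ^ p)⁻¹ - p * (u - l) / (1 + u) ^ (p + 1)) ≤ c1 * (u - l))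
    (h2 : ((1 + l) ^ p)⁻¹ - ((1 + u) ^ p)⁻¹ - p * (u - l) / (1 + u) ^ (p + 1) ≤ c2 * (u - l) ^ 2) :
    ((1 + δ) ^ p)⁻¹ - 1 + (p : ℝ) * δ ≤ c0 + c1 * (δ - l) + c2 * (δ - l) ^ 2 := by
  have hb : 0 < 1 + u := by linarith
  have hd : 0 < u - l := sub_pos.2 hu
  have ea := psi_eq hb p (by linarith : (0 : ℝ) < 1 + l)
  have er := psi_eq hb p (by linarith : (0 : ℝ) < 1 + δ)
  set ψ := psi (1 + u) p (1 + l) with hψ
  have hN : ((1 + l) ^ p)⁻¹ - ((1 + u) ^ p)⁻¹ - p * (u - l) / (1 + u) ^ (p + 1) = (u - l) ^ 2 * ψ := by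
    linear_combination ea
  rw [hN] at h1 h2
  have e1 : (p : ℝ) - p / (1 + u) ^ (p + 1) - 2 * (u - l) * ψ ≤ c1 := by
    refine le_of_mul_le_mul_right ?_ hd
    linarith
  have e2 : ψ ≤ c2 := le_of_mul_le_mul_right (by linarith) (pow_pos hd 2)
  have h3 := mul_le_mul_of_nonneg_left (psi_anti hb p (by linarith : (0 : ℝ) < 1 + l)
    (by linarith : 1 + l ≤ 1 + δ)) (sq_nonneg (1 + δ - (1 + u)))
  linear_combination h0 + mul_le_mul_of_nonneg_right e1 (sub_nonneg.2 hx) +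
    mul_le_mul_of_nonneg_right e2 (sq_nonneg (δ - l)) + h3 + er - ea

/-- The line below `R₂`. -/
theorem line_le_R2 {v : ℝ} (hv : -1 < v) (hd : -1 < δ) (hx : l ≤ δ)
    (h0 : c0 ≤ ((1 + v) ^ p)⁻¹ - 1 + (p : ℝ) * v + ((p : ℝ) - p / (1 + v) ^ (p + 1)) * (l - v))
    (h1 : c1 ≤ (p : ℝ) - p / (1 + v) ^ (p + 1)) :
    c0 + c1 * (δ - l) ≤ ((1 + δ) ^ p)⁻¹ - 1 + (p : ℝ) * δ := by
  have er := psi_eq (by linarith : (0 : ℝ) < 1 + v) p (by linarith : (0 : ℝ) < 1 + δ)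
  have hp := psi_nonneg (by linarith : (0 : ℝ) < 1 + v) p (by linarith : (0 : ℝ) < 1 + δ)
  linear_combination h0 + mul_le_mul_of_nonneg_right h1 (sub_nonneg.2 hx) +
    mul_nonneg (sq_nonneg (1 + δ - (1 + v))) hp - er

end Vale.Agent.P237.All.Finite
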