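import Vale.Agent.P237.All.Certificate
import Vale.Agent.P237.All.CertTools
import Vale.Agent.P237.All.Finite.Hermite

/-!
P237, finitely many dimensions: `Reach` with an explicit lower bound on the tail mass, and rational
bounds on the moments of the ball.
-/

noncomputable section

open MeasureTheory Set Real intervalIntegral

namespace Vale.Agent.P237.All.Transport.Finite

open Vale.Agent.P237.All.Finite (psi_eq psi_nonneg)

/-- `n` terms of the series of the tail mass from the `j`-th on; `c` is the `j`-th coefficient of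
`(1 - s) ^ (-1 / 2)` times `s ^ j`. -/
def tailSum {R : Type*} [Field R] (p : ℕ) (s : R) : ℕ → ℕ → R → R
  | 0, _, _ => 0
  | n + 1, j, c => c / ((p : R) + 2 + 2 * (j : R)) +
      tailSum p s n (j + 1) (c * (2 * (j : R) + 1) / (2 * (j : R) + 2) * s)

/-- The factor of `S ^ (p + 2)` in the tail mass, `s = 1 - y ^ 2`. -/
def tailB (p : ℕ) (s : ℝ) : ℝ := tailSum p s 20 0 1

/-- The same for rational arguments. -/
def tailBQ (p : ℕ) (s : ℚ) : ℚ := tailSum p s 20 0 1

theorem tailSum_cast (p : ℕ) (s : ℚ) : ∀ (n j : ℕ) (c : ℚ),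
    ((tailSum p s n j c : ℚ) : ℝ) = tailSum p (s : ℝ) n j (c : ℝ)
  | 0, _, _ => by simp [tailSum]
  | n + 1, j, c => by simp only [tailSum]; push_cast [tailSum_cast p s n]; rfl

theorem tailBQ_cast (p : ℕ) (s : ℚ) : ((tailBQ p s : ℚ) : ℝ) = tailB p (s : ℝ) := by
  simp [tailBQ, tailB, tailSum_cast]

theorem tailSum_nonneg (p : ℕ) {s : ℝ} (hs : 0 ≤ s) : ∀ (n j : ℕ) (c : ℝ), 0 ≤ c → 0 ≤ tailSum p s n j c
  | 0, _, _, _ => le_rfl
  | n + 1, j, c, hc => by
    simp only [tailSum]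
    exact add_nonneg (by positivity) (tailSum_nonneg p hs n _ _ (by positivity))

theorem tailSum_mono (p : ℕ) {s t : ℝ} (hs : 0 ≤ s) (hst : s ≤ t) : ∀ (n j : ℕ) (c d : ℝ),
    0 ≤ c → c ≤ d → tailSum p s n j c ≤ tailSum p t n j d
  | 0, _, _, _, _, _ => le_rfl
  | n + 1, j, c, d, hc, hcd => by
    simp only [tailSum]
    refine add_le_add (by gcongr) (tailSum_mono p hs hst n _ _ _ (by positivity) ?_)
    have : 0 ≤ d := hc.trans hcd
    gcongr

theorem tailB_mono (p : ℕ) {s t : ℝ} (hs : 0 ≤ s) (hst : s ≤ t) : tailB p s ≤ tailB p t :=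
  tailSum_mono p hs hst 20 0 1 1 zero_le_one le_rfl

theorem tailB_first (p : ℕ) {s : ℝ} (hs : 0 ≤ s) : 1 / ((p : ℝ) + 2) ≤ tailB p s := by
  rw [tailB, show (20 : ℕ) = 19 + 1 from rfl, tailSum]
  have := tailSum_nonneg p hs 19 (0 + 1) (1 * (2 * ((0 : ℕ) : ℝ) + 1) / (2 * ((0 : ℕ) : ℝ) + 2) * s)
    (by positivity)
  push_cast at this ⊢
  simp only [mul_zero, add_zero, zero_add] at this ⊢
  linarith

theorem tailB_pos (p : ℕ) {s : ℝ} (hs : 0 ≤ s) : 0 < tailB p s :=
  lt_of_lt_of_le (by positivity) (tailB_first p hs)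

/-- The upper bound on the factor of `S ^ (p + 2)` in the tail mass, `s = 1 - y ^ 2`, `z = y ^ 2`. -/
def tailUp {R : Type*} [Field R] (p : ℕ) (s z : R) : R :=
  tailSum p s 60 0 1 +
    96614908840363322603893139521372656 / 1329227995784915872903807060280344576 * s ^ 60 / (((p : R) + 122) * z)

theorem tailUp_cast (p : ℕ) (s z : ℚ) :
    ((tailUp p s z : ℚ) : ℝ) = tailUp p (s : ℝ) (z : ℝ) := by
  simp only [tailUp]; push_cast [tailSum_cast]; rfl

/-- The next coefficient. -/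
def serC (j : ℕ) (a : ℝ) : ℝ := a * (2 * (j : ℝ) + 1) / (2 * (j : ℝ) + 2)

/-- A section of the binomial series. -/
def serP : ℕ → ℕ → ℝ → ℝ → ℝ
  | 0, _, _, _ => 0
  | n + 1, j, a, s => a * s ^ j + serP n (j + 1) (serC j a) s

/-- Its derivative. -/
def serD : ℕ → ℕ → ℝ → ℝ → ℝ
  | 0, _, _, _ => 0
  | n + 1, j, a, s => a * ((j : ℝ) * s ^ (j - 1)) + serD n (j + 1) (serC j a) s

theorem serP_deriv : ∀ (n j : ℕ) (a s : ℝ), HasDerivAt (serP n j a) (serD n j a s) s
  | 0, _, _, s => hasDerivAt_const s 0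
  | n + 1, j, a, s => ((hasDerivAt_pow j s).const_mul a).add (serP_deriv n (j + 1) (serC j a) s)

theorem serP_key {s : ℝ} (hs : 0 ≤ s) : ∀ (n j : ℕ) (a : ℝ), 0 ≤ a →
    2 * (1 - s) * serD n j a s - serP n j a s ≤ 2 * a * ((j : ℝ) * s ^ (j - 1))
  | 0, j, a, ha => by simp only [serD, serP, mul_zero, sub_zero]; positivity
  | n + 1, j, a, ha => by
    have ih := serP_key hs n (j + 1) (serC j a) (by unfold serC; positivity)
    have e : (j : ℝ) * (s ^ (j - 1) * s) = (j : ℝ) * s ^ j := by cases j <;> simp [pow_succ]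
    have e1 : 2 * serC j a * (((j + 1 : ℕ) : ℝ) * s ^ (j + 1 - 1)) = (2 * (j : ℝ) + 1) * a * s ^ j := by
      simp only [serC, Nat.add_sub_cancel]
      push_cast
      field_simp
    rw [e1] at ih
    simp only [serD, serP]
    linear_combination ih - 2 * a * e

/-- The coefficient after a section. -/
def serLast : ℕ → ℕ → ℝ → ℝ
  | 0, _, a => a
  | n + 1, j, a => serLast n (j + 1) (serC j a)

/-- `serP_key` with what the section leaves. -/
theorem serP_id (s : ℝ) : ∀ (n j : ℕ) (a : ℝ),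
    2 * (1 - s) * serD n j a s - serP n j a s =
      2 * a * ((j : ℝ) * s ^ (j - 1)) - 2 * serLast n j a * (((j + n : ℕ) : ℝ) * s ^ (j + n - 1))
  | 0, j, a => by simp [serD, serP, serLast]
  | n + 1, j, a => by
    have ih := serP_id s n (j + 1) (serC j a)
    have e : (j : ℝ) * (s ^ (j - 1) * s) = (j : ℝ) * s ^ j := by cases j <;> simp [pow_succ]
    have e1 : 2 * serC j a * (((j + 1 : ℕ) : ℝ) * s ^ (j + 1 - 1)) = (2 * (j : ℝ) + 1) * a * s ^ j := by
      simp only [serC, Nat.add_sub_cancel]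
      push_cast
      field_simp
    rw [e1, show j + 1 + n = j + (n + 1) by omega] at ih
    simp only [serD, serP, serLast]
    linear_combination ih - 2 * a * e

theorem serP_le {u : ℝ} (hu : u ∈ Icc (0 : ℝ) 1) (n : ℕ) : u * serP n 0 1 (1 - u ^ 2) ≤ 1 := by
  have hd : ∀ v : ℝ, HasDerivAt (fun v => v * serP n 0 1 (1 - v ^ 2))
      (serP n 0 1 (1 - v ^ 2) - 2 * v ^ 2 * serD n 0 1 (1 - v ^ 2)) v := fun v => by
    refine ((hasDerivAt_id v).mul ((serP_deriv n 0 1 (1 - v ^ 2)).comp v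
      ((hasDerivAt_pow 2 v).const_sub 1))).congr_deriv ?_
    simp only [id_eq, Function.comp_apply]
    push_cast
    ring
  have hm : MonotoneOn (fun v => v * serP n 0 1 (1 - v ^ 2)) (Icc 0 1) := by
    refine monotoneOn_of_deriv_nonneg (convex_Icc 0 1)
      (fun v _ => (hd v).continuousAt.continuousWithinAt) (fun v _ => (hd v).differentiableAt.differentiableWithinAt)
      fun v hv => ?_
    rw [interior_Icc] at hv
    rw [(hd v).deriv]
    have := serP_key (s := 1 - v ^ 2) (by nlinarith [hv.1, hv.2]) n 0 1 zero_le_one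
    simp only [Nat.cast_zero, zero_mul, mul_zero, sub_sub_cancel] at this
    linarith
  refine (hm hu (right_mem_Icc.2 zero_le_one) hu.2).trans ?_
  have h0 : ∀ (n j : ℕ) (a : ℝ), serP n (j + 1) a 0 = 0 := by
    intro n
    induction n with
    | zero => intros; rfl
    | succ n ih => intro j a; simp [serP, ih]
  rcases n with _ | n <;> simp [serP, h0]

/-- The series against the powers of `semi`. -/
def serH (p : ℕ) : ℕ → ℕ → ℝ → ℝ → ℝ
  | 0, _, _, _ => 0
  | n + 1, j, a, u => a * semi u ^ (p + 2 + 2 * j) / ((p : ℝ) + 2 + 2 * j) + serH p n (j + 1) (serC j a) u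

theorem serH_eq (p : ℕ) {u : ℝ} (hu : u ∈ Icc (-1 : ℝ) 1) : ∀ (n j : ℕ) (a : ℝ),
    semi u ^ (p + 2) * tailSum p (1 - u ^ 2) n j (a * (1 - u ^ 2) ^ j) = serH p n j a u
  | 0, _, _ => by simp [tailSum, serH]
  | n + 1, j, a => by
    simp only [tailSum, serH]
    rw [← serH_eq p hu n (j + 1) (serC j a), pow_add _ (p + 2), pow_mul, semi_sq hu,
      show a * (1 - u ^ 2) ^ j * (2 * (j : ℝ) + 1) / (2 * (j : ℝ) + 2) * (1 - u ^ 2) =
        serC j a * (1 - u ^ 2) ^ (j + 1) by simp only [serC, pow_succ]; ring]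
    ring

theorem serH_deriv (p : ℕ) {u : ℝ} (hu : u ∈ Ioo (-1 : ℝ) 1) : ∀ (n j : ℕ) (a : ℝ),
    HasDerivAt (serH p n j a) (-(u * semi u ^ p * serP n j a (1 - u ^ 2))) u
  | 0, _, _ => (hasDerivAt_const u (0 : ℝ)).congr_deriv (by simp [serP])
  | n + 1, j, a => by
    refine (((((semi_hasDerivAt hu).pow (p + 2 + 2 * j)).const_mul a).div_const _).add
      (serH_deriv p hu n (j + 1) (serC j a))).congr_deriv ?_
    have h0 := (semi_pos hu).ne'
    rw [show p + 2 + 2 * j - 1 = p + 2 * j + 1 by omega, pow_succ, pow_add (semi u) p (2 * j), pow_mul,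
      semi_sq (Ioo_subset_Icc_self hu)]
    simp only [serP]
    push_cast
    field_simp
    ring

theorem serH_continuous (p : ℕ) : ∀ (n j : ℕ) (a : ℝ), Continuous (serH p n j a)
  | 0, _, _ => continuous_const
  | n + 1, j, a => (((semi_continuous.pow _).const_smul a).div_const _).add (serH_continuous p n _ _)

theorem tail_series (p : ℕ) {y : ℝ} (hy : y ∈ Icc (0 : ℝ) 1) :
    semi y ^ (p + 2) * tailB p (1 - y ^ 2) ≤ mass p semi 1 - mass p semi y := by
  set G : ℝ → ℝ := fun u => mass p semi 1 - mass p semi u - serH p 20 0 1 u with hG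
  have hm : Continuous (mass p semi) := continuous_iff_continuousAt.2
    fun u => (semi_mass_hasDerivAt p u).continuousAt
  have hc : ContinuousOn G (Icc 0 1) :=
    ((continuous_const.sub hm).sub (serH_continuous p 20 0 1)).continuousOn
  have hd : ∀ u ∈ Ioo (0 : ℝ) 1, HasDerivAt G
      (-semi u ^ p * (1 - u * serP 20 0 1 (1 - u ^ 2))) u := by
    intro u hu
    exact (((semi_mass_hasDerivAt p u).const_sub (mass p semi 1)).sub
      (serH_deriv p ⟨by linarith [hu.1], hu.2⟩ 20 0 1)).congr_deriv (by ring)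
  have hle : ∀ u ∈ Ioo (0 : ℝ) 1, -semi u ^ p * (1 - u * serP 20 0 1 (1 - u ^ 2)) ≤ 0 := fun u hu =>
    mul_nonpos_of_nonpos_of_nonneg (neg_nonpos.2 (pow_nonneg (Real.sqrt_nonneg _) _))
      (sub_nonneg.2 (serP_le (Ioo_subset_Icc_self hu) 20))
  have hanti : AntitoneOn G (Icc 0 1) := antitoneOn_of_deriv_nonpos (convex_Icc 0 1) hc
    (fun u hu => by rw [interior_Icc] at hu; exact (hd u hu).differentiableAt.differentiableWithinAt)
    (fun u hu => by rw [interior_Icc] at hu; rw [(hd u hu).deriv]; exact hle u hu)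
  have h1 := hanti hy (right_mem_Icc.2 zero_le_one) hy.2
  have h0 : ∀ (n j : ℕ) (a : ℝ), serH p n j a 1 = 0 := by
    intro n
    induction n with
    | zero => intros; rfl
    | succ n ih =>
      intro j a
      simp [serH, ih, semi, show p + 2 + 2 * j ≠ 0 by omega]
  have e1 : G 1 = 0 := by simp [hG, h0]
  have e := serH_eq p (u := y) ⟨by linarith [hy.1], hy.2⟩ 20 0 1
  rw [pow_zero, mul_one] at e
  rw [e1] at h1
  simp only [hG] at h1
  rw [tailB, e]
  linarith

theorem serLast_choose : ∀ n j : ℕ,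
    serLast n j ((j.centralBinom : ℝ) / 4 ^ j) = ((j + n).centralBinom : ℝ) / 4 ^ (j + n)
  | 0, _ => rfl
  | n + 1, j => by
    have h := congrArg (Nat.cast (R := ℝ)) (Nat.succ_mul_centralBinom_succ j)
    push_cast at h
    rw [serLast, show serC j ((j.centralBinom : ℝ) / 4 ^ j) =
        (((j + 1).centralBinom : ℕ) : ℝ) / 4 ^ (j + 1) by
      simp only [serC, pow_succ]; field_simp; linear_combination (-2) * h,
      serLast_choose n (j + 1), show j + 1 + n = j + (n + 1) by omega]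

theorem serLast_eq : serLast 60 0 1 =
    96614908840363322603893139521372656 / 1329227995784915872903807060280344576 := by
  have h := serLast_choose 60 0
  rw [Nat.centralBinom_zero, Nat.cast_one, pow_zero, div_one, zero_add] at h
  rw [h, show Nat.centralBinom 60 = 96614908840363322603893139521372656 by
    rw [Nat.centralBinom, Nat.choose_eq_descFactorial_div_factorial]; decide +kernel]
  norm_num

/-- The section with its remainder dominates the series. -/
theorem one_le_serP {u : ℝ} (hu : u ∈ Ioc (0 : ℝ) 1) :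
    1 ≤ u * serP 60 0 1 (1 - u ^ 2) + serLast 60 0 1 * (1 - u ^ 2) ^ 60 / u := by
  set c := serLast 60 0 1 with hcd
  have hd : ∀ v : ℝ, v ≠ 0 → HasDerivAt (fun v => v * serP 60 0 1 (1 - v ^ 2) + c * (1 - v ^ 2) ^ 60 / v)
      (-(c * (1 - v ^ 2) ^ 60 / v ^ 2)) v := fun v hv => by
    refine ((((hasDerivAt_id v).mul ((serP_deriv 60 0 1 (1 - v ^ 2)).comp v
      ((hasDerivAt_pow 2 v).const_sub 1)))).add
      (((((hasDerivAt_pow 2 v).const_sub 1).pow 60).const_mul c).div (hasDerivAt_id v) hv)).congr_deriv ?_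
    have h := serP_id (1 - v ^ 2) 60 0 1
    simp only [Nat.cast_zero, zero_mul, mul_zero, sub_sub_cancel, zero_sub, zero_add, ← hcd] at h
    simp only [id_eq, Function.comp_apply, Pi.pow_apply]
    push_cast at h ⊢
    field_simp
    linear_combination (-v ^ 2) * h
  have hc : 0 ≤ c := by rw [hcd, serLast_eq]; norm_num
  have hm : AntitoneOn (fun v => v * serP 60 0 1 (1 - v ^ 2) + c * (1 - v ^ 2) ^ 60 / v) (Ioc 0 1) := by
    refine antitoneOn_of_deriv_nonpos (convex_Ioc 0 1)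
      (fun v hv => (hd v hv.1.ne').continuousAt.continuousWithinAt)
      (fun v hv => (hd v ?_).differentiableAt.differentiableWithinAt) fun v hv => ?_
    · rw [interior_Ioc] at hv; exact hv.1.ne'
    rw [interior_Ioc] at hv
    rw [(hd v hv.1.ne').deriv, neg_nonpos]
    have : 0 ≤ 1 - v ^ 2 := by nlinarith [hv.1, hv.2]
    exact div_nonneg (mul_nonneg hc (pow_nonneg this 60)) (sq_nonneg v)
  refine le_trans ?_ (hm hu (right_mem_Ioc.2 zero_lt_one) hu.2)
  have h0 : ∀ (n j : ℕ) (a : ℝ), serP n (j + 1) a 0 = 0 := by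
    intro n
    induction n with
    | zero => intros; rfl
    | succ n ih => intro j a; simp [serP, ih]
  show _ ≤ _ * serP (59 + 1) 0 1 _ + _
  simp [serP, h0]

/-- An upper bound on the tail mass. -/
theorem tail_upper (p : ℕ) {y : ℝ} (hy : y ∈ Ioo (0 : ℝ) 1) :
    mass p semi 1 - mass p semi y ≤ semi y ^ (p + 2) * tailUp p (1 - y ^ 2) (y ^ 2) := by
  set c := serLast 60 0 1 with hcd
  set G : ℝ → ℝ := fun u => mass p semi 1 - mass p semi u - serH p 60 0 1 u -
    c / ((((p : ℝ) + 122)) * y ^ 2) * semi u ^ (p + 122) with hG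
  have hm : Continuous (mass p semi) := continuous_iff_continuousAt.2
    fun u => (semi_mass_hasDerivAt p u).continuousAt
  have hcn : Continuous G :=
    (((continuous_const.sub hm).sub (serH_continuous p 60 0 1))).sub
      (continuous_const.mul (semi_continuous.pow _))
  have hp : (0 : ℝ) < (p : ℝ) + 122 := by positivity
  have hy0 : y ≠ 0 := hy.1.ne'
  have hd : ∀ u ∈ Ioo y 1, HasDerivAt G
      (semi u ^ p * (u * serP 60 0 1 (1 - u ^ 2) + c * u / y ^ 2 * (1 - u ^ 2) ^ 60 - 1)) u := by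
    intro u hu
    have hu' : u ∈ Ioo (-1 : ℝ) 1 := ⟨by linarith [hy.1, hu.1], hu.2⟩
    refine ((((semi_mass_hasDerivAt p u).const_sub (mass p semi 1)).sub
      (serH_deriv p hu' 60 0 1)).sub (((semi_hasDerivAt hu').pow (p + 122)).const_mul _)).congr_deriv ?_
    have h0 := (semi_pos hu').ne'
    have e : semi u ^ (p + 122 - 1) = semi u ^ p * (1 - u ^ 2) ^ 60 * semi u := by
      rw [show p + 122 - 1 = p + 2 * 60 + 1 by omega, pow_succ (semi u), pow_add (semi u) p (2 * 60), pow_mul,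
        semi_sq (Ioo_subset_Icc_self hu')]
    rw [e]
    push_cast
    field_simp
    ring
  have hge : ∀ u ∈ Ioo y 1,
      0 ≤ semi u ^ p * (u * serP 60 0 1 (1 - u ^ 2) + c * u / y ^ 2 * (1 - u ^ 2) ^ 60 - 1) := by
    intro u hu
    have hu0 : 0 < u := hy.1.trans hu.1
    have hc : 0 ≤ c := by rw [hcd, serLast_eq]; norm_num
    have hs : 0 ≤ 1 - u ^ 2 := by nlinarith [hu.2]
    have h1 := one_le_serP (u := u) ⟨hu0, hu.2.le⟩
    have h2 : c * (1 - u ^ 2) ^ 60 / u ≤ c * u / y ^ 2 * (1 - u ^ 2) ^ 60 := by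
      rw [div_mul_eq_mul_div, div_le_div_iff₀ hu0 (pow_pos hy.1 2)]
      have : y ^ 2 ≤ u * u := by nlinarith [hu.1, hy.1]
      nlinarith [mul_le_mul_of_nonneg_left this (mul_nonneg hc (pow_nonneg hs 60))]
    exact mul_nonneg (pow_nonneg (Real.sqrt_nonneg _) _) (by rw [← hcd] at h1; linarith)
  have hmono : MonotoneOn G (Icc y 1) := monotoneOn_of_deriv_nonneg (convex_Icc y 1) hcn.continuousOn
    (fun u hu => by rw [interior_Icc] at hu; exact (hd u hu).differentiableAt.differentiableWithinAt)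
    (fun u hu => by rw [interior_Icc] at hu; rw [(hd u hu).deriv]; exact hge u hu)
  have h1 := hmono (left_mem_Icc.2 hy.2.le) (right_mem_Icc.2 hy.2.le) hy.2.le
  have h0 : ∀ (n j : ℕ) (a : ℝ), serH p n j a 1 = 0 := by
    intro n
    induction n with
    | zero => intros; rfl
    | succ n ih =>
      intro j a
      simp [serH, ih, semi, show p + 2 + 2 * j ≠ 0 by omega]
  have e1 : G 1 = 0 := by simp [hG, h0, semi, show p + 122 ≠ 0 by omega]
  have hyI : y ∈ Icc (-1 : ℝ) 1 := ⟨by linarith [hy.1], hy.2.le⟩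
  have e := serH_eq p hyI 60 0 1
  rw [pow_zero, mul_one] at e
  have e2 : semi y ^ (p + 122) = semi y ^ (p + 2) * (1 - y ^ 2) ^ 60 := by
    rw [show p + 122 = p + 2 + 2 * 60 by omega, pow_add, pow_mul (semi y) 2 60, semi_sq hyI]
  rw [e1] at h1
  simp only [hG, e2, hcd, serLast_eq] at h1
  have : semi y ^ (p + 2) * tailUp p (1 - y ^ 2) (y ^ 2) = serH p 60 0 1 y +
      96614908840363322603893139521372656 / 1329227995784915872903807060280344576 / (((p : ℝ) + 122) * y ^ 2) * (semi y ^ (p + 2) * (1 - y ^ 2) ^ 60) := by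
    rw [tailUp, ← e]; ring
  linarith

theorem tailUp_mono (p : ℕ) {s t z w : ℝ} (hs : 0 ≤ s) (hst : s ≤ t) (hz : 0 < z) (hzw : z ≤ w) :
    tailUp p s w ≤ tailUp p t z := by
  unfold tailUp
  have ht : 0 ≤ t := hs.trans hst
  refine add_le_add (tailSum_mono p hs hst 60 0 1 1 zero_le_one le_rfl) ?_
  gcongr

/-- The back band from the series of the tail. -/
theorem band_back_series (p : ℕ) {y t lam y0 α : ℝ} (hy : y ∈ Ioo (0 : ℝ) 1) (ht : t ∈ Ioo (0 : ℝ) 1)
    (hlam : 1 ≤ lam)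
    (h : mass p semi 1 - mass p semi t ≤ lam ^ p * (mass p semi 1 - mass p semi y))
    (hy0 : 0 < y0) (hy0y : y0 ≤ y)
    (hα : (lam ^ p - 1) * tailUp p (1 - y0 ^ 2) (y0 ^ 2) ≤ α * y0) :
    -α * (1 - y ^ 2) ≤ t / y - 1 := by
  have hε : 0 ≤ lam ^ p - 1 := sub_nonneg.2 (one_le_pow₀ hlam)
  have hs : 0 ≤ 1 - y ^ 2 := by nlinarith [hy.1, hy.2]
  have hz : y0 ^ 2 ≤ y ^ 2 := pow_le_pow_left₀ hy0.le hy0y 2
  have hB : 0 ≤ tailUp p (1 - y0 ^ 2) (y0 ^ 2) := by
    have : 0 ≤ 1 - y0 ^ 2 := by linarith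
    exact add_nonneg (tailSum_nonneg p this _ _ _ zero_le_one) (by positivity)
  have hα0 : 0 ≤ α := nonneg_of_mul_nonneg_left ((mul_nonneg hε hB).trans hα) hy0
  rw [le_sub_iff_add_le, le_div_iff₀ hy.1]
  rcases le_total y t with hyt | hyt
  · nlinarith [mul_nonneg (mul_nonneg hα0 hs) hy.1.le]
  have hsy := semi_pos (t := y) ⟨by linarith [hy.1], hy.2⟩
  have hi : ∀ a b : ℝ, IntervalIntegrable (fun v => semi v ^ p) volume a b := fun a b =>
    (semi_continuous.pow p).intervalIntegrable a b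
  have h1 : (y - t) * semi y ^ p ≤ mass p semi y - mass p semi t := by
    rw [mass, mass, intervalIntegral.integral_interval_sub_left (hi 0 y) (hi 0 t)]
    refine le_trans (le_of_eq (by rw [intervalIntegral.integral_const, smul_eq_mul]))
      (intervalIntegral.integral_mono_on hyt intervalIntegrable_const (hi t y) fun v hv => ?_)
    refine pow_le_pow_left₀ hsy.le (Real.sqrt_le_sqrt ?_) p
    nlinarith [hv.1, hv.2, ht.1]
  have h2 := mul_le_mul_of_nonneg_left (tail_upper p hy) hε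
  rw [pow_add, semi_sq ⟨by linarith [hy.1], hy.2.le⟩] at h2
  have h3 : y - t ≤ (lam ^ p - 1) * ((1 - y ^ 2) * tailUp p (1 - y ^ 2) (y ^ 2)) := by
    refine le_of_mul_le_mul_right ?_ (pow_pos hsy p)
    linarith
  have h4 := mul_le_mul_of_nonneg_left
    (tailUp_mono p hs (by linarith : 1 - y ^ 2 ≤ 1 - y0 ^ 2) (pow_pos hy0 2) hz) hε
  have h5 : (lam ^ p - 1) * tailUp p (1 - y ^ 2) (y ^ 2) ≤ α * y :=
    h4.trans (hα.trans (mul_le_mul_of_nonneg_left hy0y hα0))
  nlinarith [mul_le_mul_of_nonneg_left h5 hs]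

/-- `Reach` from a lower bound on the tail fraction, without logarithms. -/
theorem reach_ge (p : ℕ) {y r v0 W : ℝ} (hy : y ∈ Ioo (0 : ℝ) 1) (hr : 0 < r) (h : Reach p y r)
    (hv : v0 ≤ tailFrac p y) (hv0 : 0 < v0) (hW : 1 ≤ W ^ (p + 1) * v0) (hW0 : 1 ≤ W) :
    mass (p + 1) semi 1 * ((p : ℝ) + 2) ≤
      semi y * r * mass p semi 1 * (v0 + ((p : ℝ) + 1) * W) := by
  refine h.trans (mul_le_mul_of_nonneg_left ?_ ?_)
  swap
  · have := mass_one_pos isProfile_semi p
    have := semi_pos (t := y) ⟨by linarith [hy.1], hy.2⟩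
    positivity
  set v := tailFrac p y with hvd
  have hvp : 0 < v := hv0.trans_le hv
  have hv1 : v ≤ 1 := by
    rw [hvd, tailFrac, div_le_one (mass_one_pos isProfile_semi p)]
    have : 0 ≤ mass p semi y := intervalIntegral.integral_nonneg hy.1.le fun u _ =>
      pow_nonneg (Real.sqrt_nonneg _) _
    linarith
  set w := v ^ (-(1 / ((p : ℝ) + 1))) with hwd
  have hw1 : 1 ≤ w := Real.one_le_rpow_of_pos_of_le_one_of_nonpos hvp hv1 (by
    rw [neg_nonpos]; positivity)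
  have hwp : w ^ (p + 1) * v = 1 := by
    rw [hwd, ← Real.rpow_natCast, ← Real.rpow_mul hvp.le,
      show -(1 / ((p : ℝ) + 1)) * ((p + 1 : ℕ) : ℝ) = -1 by push_cast; field_simp,
      Real.rpow_neg_one, inv_mul_cancel₀ hvp.ne']
  have hwW : w ≤ W := by
    refine (pow_le_pow_iff_left₀ (by linarith) (by linarith) (by omega : p + 1 ≠ 0)).1 ?_
    refine le_of_mul_le_mul_right ?_ hv0
    nlinarith [mul_le_mul_of_nonneg_left hv (pow_nonneg (by linarith : (0 : ℝ) ≤ w) (p + 1))]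
  have hW1 : (1 : ℝ) ≤ w ^ (p + 1 + 1) := one_le_pow₀ hw1
  have hv' : (W ^ (p + 1))⁻¹ ≤ v0 := by
    rw [inv_le_iff_one_le_mul₀ (pow_pos (by linarith) _)]; linarith
  have he : v = (w ^ (p + 1))⁻¹ := eq_inv_of_mul_eq_one_right hwp
  have e := psi_eq (by linarith : (0 : ℝ) < w) (p + 1) (by linarith : (0 : ℝ) < W)
  have := psi_nonneg (by linarith : (0 : ℝ) < w) (p + 1) (by linarith : (0 : ℝ) < W)
  have h3 : ((p + 1 : ℕ) : ℝ) * (W - w) / w ^ (p + 1 + 1) ≤ ((p + 1 : ℕ) : ℝ) * (W - w) :=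
    div_le_self (mul_nonneg (Nat.cast_nonneg _) (sub_nonneg.2 hwW)) hW1
  push_cast at e h3
  nlinarith [mul_nonneg (sq_nonneg (W - w)) this]

/-- The factor of `π` in the moment of the ball of odd order, else the moment, from above or below. -/
def massQ (piB : ℚ) : ℕ → ℚ
  | 0 => 1
  | 1 => piB / 4
  | n + 2 => ((n : ℚ) + 2) / ((n : ℚ) + 3) * massQ piB n

theorem massQ_le : ∀ n : ℕ, ((massQ (31415 / 10000) n : ℚ) : ℝ) ≤ mass n semi 1 ∧
    mass n semi 1 ≤ ((massQ (31416 / 10000) n : ℚ) : ℝ)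
  | 0 => by simp [massQ, mass]
  | 1 => by
    have h : mass 1 semi 1 = π / 4 := by
      simp only [mass, pow_one]; exact integral_semi_half
    rw [h]; simp only [massQ]; push_cast
    constructor <;> linarith [Real.pi_gt_d4, Real.pi_lt_d4]
  | n + 2 => by
    obtain ⟨h1, h2⟩ := massQ_le n
    rw [mass_semi_step n]; simp only [massQ]; push_cast
    have : (0 : ℝ) ≤ ((n : ℝ) + 2) / ((n : ℝ) + 3) := by positivity
    exact ⟨mul_le_mul_of_nonneg_left h1 this, mul_le_mul_of_nonneg_left h2 this⟩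

variable {p : ℕ} {y r : ℝ}

/-- A lower bound on `r` on a piece, from rational data: `X / semi y` bounds the root of the inverse
tail fraction, and `S0 * v0` bounds `semi y` times its series. -/
theorem r_ge_reach (hy : y ∈ Ioo (0 : ℝ) 1) (hr : 0 < r) (h : Reach p y r) {z0 z1 S0 T1 v0 X ρ Mu Ml : ℝ}
    (hz0 : z0 ≤ y ^ 2) (hz1 : y ^ 2 ≤ z1) (hS0 : 0 ≤ S0) (hS0' : 1 - z0 ≤ S0 ^ 2) (hT1 : 0 < T1)
    (hT1' : T1 ^ 2 ≤ 1 - z1) (hMu : mass p semi 1 ≤ Mu) (hMl : Ml ≤ mass (p + 1) semi 1)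
    (hv : S0 ^ (p + 2) * tailB p (1 - z0) ≤ v0 * Mu) (hX0 : S0 ≤ X)
    (hX : Mu ≤ X ^ (p + 1) * T1 * tailB p (1 - z1))
    (hρ : ρ * Mu * (S0 * v0 + ((p : ℝ) + 1) * X) ≤ Ml * ((p : ℝ) + 2)) : ρ ≤ r := by
  have hM := mass_one_pos isProfile_semi p
  have hMu0 : 0 < Mu := hM.trans_le hMu
  have hyI : y ∈ Icc (0 : ℝ) 1 := Ioo_subset_Icc_self hy
  have hz11 : z1 ≤ 1 := by nlinarith [sq_nonneg T1]
  have hsy := semi_pos (t := y) ⟨by linarith [hy.1], hy.2⟩
  set S := semi y with hSd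
  have hTs : T1 ≤ S := by
    rw [hSd, semi, Real.le_sqrt hT1.le (by nlinarith [hy.1, hy.2])]; linarith
  have hS : S ≤ S0 := (Real.sqrt_le_iff).2 ⟨hS0, by linarith⟩
  have hXp : 0 < X := hsy.trans_le (hS.trans hX0)
  have hs1 : 0 ≤ 1 - z1 := by linarith
  have hb1 : tailB p (1 - z1) ≤ tailB p (1 - y ^ 2) := tailB_mono p hs1 (by linarith)
  have hb0 : tailB p (1 - y ^ 2) ≤ tailB p (1 - z0) :=
    tailB_mono p (by nlinarith [hy.1, hy.2]) (by linarith)
  have hbp : 0 < tailB p (1 - z1) := tailB_pos p hs1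
  have hby : 0 < tailB p (1 - y ^ 2) := hbp.trans_le hb1
  set v := S ^ (p + 2) * tailB p (1 - y ^ 2) / Mu with hvd
  have hvp : 0 < v := by positivity
  have ht : v ≤ tailFrac p y := by
    rw [tailFrac, le_div_iff₀ hM, hvd, div_mul_eq_mul_div, div_le_iff₀ hMu0]
    have := tail_series p hyI
    exact mul_le_mul this hMu hM.le (by linarith [mul_nonneg (pow_nonneg hsy.le (p + 2)) hby.le])
  have hW0 : 1 ≤ X / S := (one_le_div hsy).2 (hS.trans hX0)
  have hW : 1 ≤ (X / S) ^ (p + 1) * v := by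
    have e : (X / S) ^ (p + 1) * v = X ^ (p + 1) * S * tailB p (1 - y ^ 2) / Mu := by
      rw [hvd, show S ^ (p + 2) = S ^ (p + 1) * S from pow_succ S (p + 1), div_pow]
      field_simp
    rw [e, one_le_div hMu0]
    refine hX.trans ?_
    exact mul_le_mul (mul_le_mul_of_nonneg_left hTs (by positivity)) hb1 hbp.le (by positivity)
  have h1 := reach_ge p hy hr h ht hvp hW hW0
  by_contra hlt
  push Not at hlt
  have hp2 : (0 : ℝ) < (p : ℝ) + 2 := by positivity
  have hρ0 : 0 < ρ := hr.trans hlt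
  have hv' : S * v ≤ S0 * v0 := by
    refine le_trans (mul_le_mul hS ?_ hvp.le hS0) le_rfl
    rw [hvd, div_le_iff₀ hMu0]
    exact (mul_le_mul (pow_le_pow_left₀ hsy.le hS _) hb0 hby.le (by positivity)).trans hv
  have hK : 0 < S * v + ((p : ℝ) + 1) * X := by positivity
  have h2 : S * r * mass p semi 1 * (v + ((p : ℝ) + 1) * (X / S)) =
      r * mass p semi 1 * (S * v + ((p : ℝ) + 1) * X) := by field_simp
  have h3 : r * mass p semi 1 * (S * v + ((p : ℝ) + 1) * X) <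
      ρ * Mu * (S0 * v0 + ((p : ℝ) + 1) * X) := by
    calc r * mass p semi 1 * (S * v + ((p : ℝ) + 1) * X)
        < ρ * mass p semi 1 * (S * v + ((p : ℝ) + 1) * X) := by gcongr
      _ ≤ ρ * Mu * (S0 * v0 + ((p : ℝ) + 1) * X) := by gcongr
  rw [h2] at h1
  nlinarith [mul_le_mul_of_nonneg_right hMl hp2.le]

/-- The excess `s r ^ (-p)` up to `y = 1`. -/
theorem excess_le (hp : 1 ≤ p) (hy : y ∈ Ioo (0 : ℝ) 1) (hr : 0 < r) (h : Reach p y r)
    {z0 S0 W K Mu Ml : ℝ} (hz0 : z0 ≤ y ^ 2) (hS0 : 0 ≤ S0) (hS0' : 1 - z0 ≤ S0 ^ 2)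
    (hMu : mass p semi 1 ≤ Mu) (hMl0 : 0 < Ml) (hMl : Ml ≤ mass (p + 1) semi 1) (hW0 : 1 ≤ W)
    (hW : ((p : ℝ) + 2) * Mu ≤ W ^ (p + 1))
    (hK : S0 * ((((p : ℝ) + 2) * W) * Mu) ^ p ≤ K * (Ml * ((p : ℝ) + 2)) ^ p) :
    (1 - y ^ 2) * (r ^ p)⁻¹ ≤ K := by
  have hM := mass_one_pos isProfile_semi p
  have hMu0 : 0 < Mu := hM.trans_le hMu
  have hp2 : (0 : ℝ) < (p : ℝ) + 2 := by positivity
  have hsy := semi_pos (t := y) ⟨by linarith [hy.1], hy.2⟩
  set S := semi y with hS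
  have hS1 : S ≤ 1 := Real.sqrt_le_one.2 (by nlinarith [hy.1])
  -- tail and the root of its inverse
  have hv : S ^ (p + 2) / (((p : ℝ) + 2) * Mu) ≤ tailFrac p y := by
    rw [tailFrac, div_le_div_iff₀ (mul_pos hp2 hMu0) hM]
    have h1 := tail_series p (Ioo_subset_Icc_self hy)
    have h2 : 1 / ((p : ℝ) + 2) ≤ tailB p (1 - y ^ 2) := tailB_first p (by nlinarith [hy.1, hy.2])
    have h3 := (mul_le_mul_of_nonneg_left h2 (pow_nonneg hsy.le (p + 2))).trans h1
    rw [mul_one_div, div_le_iff₀ hp2] at h3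
    calc S ^ (p + 2) * mass p semi 1 ≤ ((mass p semi 1 - mass p semi y) * ((p : ℝ) + 2)) * Mu :=
          mul_le_mul h3 hMu hM.le ((pow_nonneg hsy.le _).trans h3)
      _ = _ := by ring
  set v := tailFrac p y
  have hvp : 0 < v := lt_of_lt_of_le (by positivity) hv
  set w := v ^ (-(1 / ((p : ℝ) + 1))) with hwd
  have hw0 : 0 < w := Real.rpow_pos_of_pos hvp _
  have hwp : w ^ (p + 1) * v = 1 := by
    rw [hwd, ← Real.rpow_natCast, ← Real.rpow_mul hvp.le,
      show -(1 / ((p : ℝ) + 1)) * ((p + 1 : ℕ) : ℝ) = -1 by push_cast; field_simp,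
      Real.rpow_neg_one, inv_mul_cancel₀ hvp.ne']
  have hv1 : v ≤ 1 := by
    show tailFrac p y ≤ 1
    rw [tailFrac, div_le_one hM]
    have : 0 ≤ mass p semi y := intervalIntegral.integral_nonneg hy.1.le fun u _ =>
      pow_nonneg (Real.sqrt_nonneg _) _
    linarith
  set q := S * w with hq
  have hq0 : 0 < q := mul_pos hsy hw0
  -- `q ^ m S ≤ W ^ m`
  have hqm : q ^ (p + 1) * S ≤ W ^ (p + 1) := by
    refine le_trans ?_ hW
    rw [div_le_iff₀ (mul_pos hp2 hMu0)] at hv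
    calc q ^ (p + 1) * S = w ^ (p + 1) * S ^ (p + 2) := by rw [hq]; ring
      _ ≤ w ^ (p + 1) * (v * (((p : ℝ) + 2) * Mu)) := by gcongr
      _ = _ := by rw [← mul_assoc, hwp, one_mul]
  have hqp : q ^ p * S ≤ W ^ p := by
    refine (pow_le_pow_iff_left₀ (by positivity) (by positivity) (by omega : p + 1 ≠ 0)).1 ?_
    calc (q ^ p * S) ^ (p + 1) = (q ^ (p + 1) * S) ^ p * S := by ring
      _ ≤ (W ^ (p + 1)) ^ p * 1 := by gcongr
      _ = _ := by ring
  have hbr : (v + ((p : ℝ) + 1) * w) * S ≤ S + ((p : ℝ) + 1) * q := by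
    rw [hq]; nlinarith
  have hB : (S + ((p : ℝ) + 1) * q) ^ p * S ≤ (((p : ℝ) + 2) * W) ^ p := by
    rcases le_total q 1 with hq1 | hq1
    · calc (S + ((p : ℝ) + 1) * q) ^ p * S ≤ (((p : ℝ) + 2) * 1) ^ p * 1 := by
            gcongr
            nlinarith
        _ ≤ (((p : ℝ) + 2) * W) ^ p := by rw [mul_one]; gcongr
    · calc (S + ((p : ℝ) + 1) * q) ^ p * S ≤ (((p : ℝ) + 2) * q) ^ p * S := by
            gcongr
            nlinarith
        _ = ((p : ℝ) + 2) ^ p * (q ^ p * S) := by simp only [mul_pow]; ring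
        _ ≤ ((p : ℝ) + 2) ^ p * W ^ p := by gcongr
        _ = _ := by simp only [mul_pow]
  have hc : Ml * ((p : ℝ) + 2) ≤ r * Mu * (S + ((p : ℝ) + 1) * q) := by
    calc Ml * ((p : ℝ) + 2) ≤ mass (p + 1) semi 1 * ((p : ℝ) + 2) := by gcongr
      _ ≤ S * r * mass p semi 1 * (v + ((p : ℝ) + 1) * w) := h
      _ = r * mass p semi 1 * ((v + ((p : ℝ) + 1) * w) * S) := by ring
      _ ≤ r * Mu * (S + ((p : ℝ) + 1) * q) := by gcongr
  have hcp := pow_le_pow_left₀ (by positivity) hc p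
  rw [← div_eq_mul_inv, div_le_iff₀ (pow_pos hr p)]
  have hs2 : 1 - y ^ 2 = S * S := by
    rw [← sq, hS, semi_sq ⟨by linarith [hy.1], hy.2.le⟩]
  have hSS : S ≤ S0 := (Real.sqrt_le_iff).2 ⟨hS0, by linarith⟩
  have hC : 0 < (Ml * ((p : ℝ) + 2)) ^ p := by positivity
  refine le_of_mul_le_mul_right ?_ hC
  calc (1 - y ^ 2) * (Ml * ((p : ℝ) + 2)) ^ p
      ≤ S * S * (r * Mu * (S + ((p : ℝ) + 1) * q)) ^ p := by rw [hs2]; gcongr
    _ = S * (r ^ p * Mu ^ p * ((S + ((p : ℝ) + 1) * q) ^ p * S)) := by simp only [mul_pow]; ring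
    _ ≤ S0 * (r ^ p * Mu ^ p * (((p : ℝ) + 2) * W) ^ p) := by gcongr
    _ = r ^ p * (S0 * ((((p : ℝ) + 2) * W) * Mu) ^ p) := by simp only [mul_pow]; ring
    _ ≤ r ^ p * (K * (Ml * ((p : ℝ) + 2)) ^ p) := by gcongr
    _ = K * r ^ p * (Ml * ((p : ℝ) + 2)) ^ p := by ring

end Vale.Agent.P237.All.Transport.Finite
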