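import Vale.Agent.P237.All.Finite.Entry
import Vale.Agent.P237.All.Finite.Constraint
import Vale.Agent.P237.All.Finite.ReachLow
import Vale.Agent.P237.All.Finite.Fast.Int

/-!
P237, finitely many dimensions: the data of a cell (one dimension, a range of `k`) and its test, run by
the kernel.  Numbers are integers in units of `1 / U`; pieces end at `y = Y / Q`.
-/

noncomputable section

namespace Vale.Agent.P237.All.Finite

/-- The data at one end in `k`. -/
structure End where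
  g : ℤ
  c2 : ℤ
  ell : ℤ
  L2 : ℤ
  lam : ℤ
  eps : ℤ
  eq : ℤ
  F : List ℤ
  H : List ℤ

/-- The data of a leaf: constants, the bound on the `δ τ²` coefficient at both ends, numeric bounds on
`τ`, nodes, the line and the multipliers. -/
structure Leaf where
  u : ℤ
  v : ℤ
  q0 : ℤ
  q1 : ℤ
  q2 : ℤ
  v0 : ℤ
  v1 : ℤ
  u0 : ℤ
  u1 : ℤ
  u2 : ℤ
  w0 : ℤ
  w1 : ℤ
  xA : ℤ
  xB : ℤ
  crude : Bool
  pick : ℕ
  ztu0 : ℤ
  ztu1 : ℤ
  ca : ℤ
  cb : ℤ
  c0 : ℤ
  sl : ℤ
  lend : ℤ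
  hp0 : ℤ
  hp1 : ℤ
  ep0 : ℤ
  ep1 : ℤ
  mus : List (MI × ℤ × ℤ)

/-- A subdivision of the region of a piece. -/
inductive Tree where
  | leaf (L : Leaf)
  | splitX (m : ℤ) (lo hi : Tree)
  | splitT (m : ℤ) (lo hi : Tree)
  | lowS (l hb : ℤ) (t : Tree)
  | lowR (l : ℤ) (t : Tree)

/-- A piece `Y0 ≤ y Q ≤ Y1`. -/
structure Piece where
  Y0 : ℤ
  Y1 : ℤ
  back : Bool
  al0 : ℤ
  al1 : ℤ
  ovf : Bool
  bb0 : ℤ
  bb1 : ℤ
  phi : List ℤ
  sig0 : List ℤ
  sig1 : List ℤ
  S0 : ℤ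
  T1 : ℤ
  v0 : ℤ
  W : ℤ
  rho : ℤ
  W1 : ℤ
  Kx : ℤ
  L0 : List ℤ
  L1 : List ℤ
  L2 : List ℤ
  tree : Tree

/-- A cell. -/
structure Cell where
  K : KC
  B : ℕ
  Q : ℤ
  be : ℤ
  kA : ℚ
  kB : ℚ
  e0 : End
  e1 : End
  P0 : List ℤ
  P1 : List ℤ
  P2 : List ℤ
  pieces : List Piece

/-- A box of the subdivision. -/
structure Box where
  aBand : Bool
  ta : ℤ
  bBand : Bool
  tb : ℤ
  l : ℤ
  h : Option ℤ

/-- Evaluates an integer before passing it on. -/
def strictZ {α : Type} : ℤ → (ℤ → α) → α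
  | .ofNat n, k => forceN n fun n => k (Int.ofNat n)
  | .negSucc n, k => forceN n fun n => k (Int.negSucc n)

theorem strictZ_eq {α : Type} (z : ℤ) (k : ℤ → α) : strictZ z k = k z := by
  rcases z with n | n <;> simp [strictZ, forceN_eq]

/-- The distance of the packed powers of `X`, in digits: more than the degree in `W` of a minor. -/
def stride : ℕ := 7

/-- What the kernel tests polynomials against. -/
structure Msk where
  B : ℕ
  M : ℕ
  T : ℕ

/-- The masks of a cell of degree `N`. -/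
def Msk.of (B N : ℕ) : Msk :=
  let D := stride * (3 * (N + 3)) + 6
  ⟨B, mask B D, 2 ^ (B * (D + 1))⟩

def Msk.strict {α : Type} : Msk → (Msk → α) → α
  | ⟨B, M, T⟩, k => forceN M fun M => forceN T fun T => k ⟨B, M, T⟩

theorem Msk.strict_eq {α : Type} (m : Msk) (k : Msk → α) : m.strict k = k m := by
  simp [Msk.strict, forceN_eq]

/-- The test of one packed polynomial. -/
def Msk.pos (m : Msk) (a : PK) : Bool := a.posWith m.B m.M m.T

/-- `w - S E` is positive definite. -/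
def pdTest (m : Msk) (S w : PK) (E : Six) : Bool :=
  ((S.mul E.e22).smul (-2)).norm.strict fun m22 =>
  m.pos m22 &&
  (((S.mul E.e11).smul (-2)).norm.strict fun m11 =>
  ((S.mul E.e12).smul (-1)).norm.strict fun m12 =>
  ((m22.mul m11).sub (m12.mul m12)).norm.strict fun s2 =>
  m.pos s2 &&
  (((S.mul E.e01).smul (-1)).norm.strict fun m01 =>
  ((S.mul E.e02).smul (-1)).norm.strict fun m02 =>
  ((w.sub (S.mul E.e00)).smul 2).norm.strict fun m00 =>
  (((m00.mul s2).sub (m01.mul ((m01.mul m22).sub (m12.mul m02)).norm)).add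
      (m02.mul ((m01.mul m12).sub (m11.mul m02)).norm)).strict fun dt => m.pos dt))

/-- What is computed once for a piece. -/
structure Ctx where
  m : Msk
  Z0 : ℤ
  Z1 : ℤ
  D : ℤ
  G : Frame
  DD : PK
  SD : PK
  ZD : PK
  I : IPar
  w : PK
  b : Base

/-- Evaluated parameters. -/
def IPar.strict {α : Type} : IPar → (IPar → α) → α
  | ⟨o, g, c2, ell, al, bb, ztu, L2, lam, eq, hp, ep⟩, k =>
    o.strict fun o => g.strict fun g => c2.strict fun c2 => ell.strict fun ell => al.strict fun al =>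
    bb.strict fun bb => ztu.strict fun ztu => L2.strict fun L2 => lam.strict fun lam =>
    eq.strict fun eq => hp.strict fun hp => ep.strict fun ep =>
    k ⟨o, g, c2, ell, al, bb, ztu, L2, lam, eq, hp, ep⟩

theorem IPar.strict_eq {α : Type} (P : IPar) (k : IPar → α) : P.strict k = k P := by
  simp [IPar.strict, PK.strict_eq]

/-- The context with evaluated fields. -/
def Ctx.strict {α : Type} : Ctx → (Ctx → α) → α
  | ⟨m, Z0, Z1, D, G, DD, SD, ZD, I, w, b⟩, k =>
    G.strict fun G => DD.strict fun DD => SD.strict fun SD => ZD.strict fun ZD =>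
    I.strict fun I => w.strict fun w => b.strict fun b =>
    strictZ Z0 fun Z0 => strictZ Z1 fun Z1 => strictZ D fun D =>
    k ⟨m, Z0, Z1, D, G, DD, SD, ZD, I, w, b⟩

theorem Ctx.strict_eq {α : Type} (c : Ctx) (k : Ctx → α) : c.strict k = k c := by
  simp [Ctx.strict, PK.strict_eq, Base.strict_eq, Frame.strict_eq, IPar.strict_eq, strictZ_eq]

/-- Evaluated constants of the majorant. -/
def IScal.strict {α : Type} : IScal → (IScal → α) → α
  | ⟨l, aB, ta, bB, tb, q0, q1, q2, v0, v1, u0, u1, u2, w0, w1, xA, xB, K, pick⟩, k =>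
    strictZ l fun l =>
    strictZ ta fun ta =>
    strictZ tb fun tb =>
    k ⟨l, aB, ta, bB, tb, q0, q1, q2, v0, v1, u0, u1, u2, w0, w1, xA, xB, K, pick⟩

theorem IScal.strict_eq {α : Type} (P : IScal) (k : IScal → α) : P.strict k = k P := by
  simp [IScal.strict, strictZ_eq]

/-- The constants of the majorant of a leaf. -/
def iscal (b : Box) (P : Piece) (L : Leaf) : IScal :=
  ⟨b.l, b.aBand, b.ta, b.bBand, b.tb, L.q0, L.q1, L.q2, L.v0, L.v1, L.u0, L.u1, L.u2, L.w0, L.w1,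
    L.xA, L.xB, if L.crude then P.Kx else 0, L.pick⟩

/-- The parameters of a leaf. -/
def leafPar (c : Ctx) (L : Leaf) : IPar :=
  { c.I with
    ztu := PK.linW c.m.B L.ztu0 L.ztu1, hp := PK.linW c.m.B L.hp0 L.hp1
    ep := PK.linW c.m.B L.ep0 L.ep1 }

/-- The data of the constraints of a leaf. -/
def gcOf (U : ℤ) (K : KC) (c : Ctx) (b : Box) (L : Leaf) (S : IScal) : GC :=
  { U := U, u2 := U * U, u3 := U * U * U, H := (b.h.getD b.l) - b.l, o1 := U + b.l, sl := L.sl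
    D := c.G.D, DD := c.DD, SD := c.SD, ZD := c.ZD
    DU := PK.lin c.m.B stride 0 c.D, DDU := c.G.D.mul (PK.lin c.m.B stride 0 c.D)
    SDU := c.G.S.mul (PK.lin c.m.B stride 0 c.D), ZDU := c.G.Z.mul (PK.lin c.m.B stride 0 c.D)
    o := c.I.o, al := c.I.al, bb := c.I.bb, L2 := c.I.L2, lam := c.I.lam, eq := c.I.eq
    a := eaP K c.G c.I S, b := ebP K c.G c.I S
    L := (c.I.lam.smul (U + b.l)).sub (c.I.o.smul L.c0) }

/-- The sum of the products with their multipliers. -/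
def accMus (B : ℕ) (C : GC) : List (MI × ℤ × ℤ) → Six
  | [] => ⟨PK.const 0, PK.const 0, PK.const 0, PK.const 0, PK.const 0, PK.const 0⟩
  | (i, m0, m1) :: l =>
    (accMus B C l).strict fun E =>
    (if i.quad then PK.const m0 else PK.linW B m0 m1).strict fun mu => i.acc C mu E

/-- The six coefficients with the multipliers. -/
def six (K : KC) (c : Ctx) (b : Box) (P : Piece) (L : Leaf) : Six :=
  (iscal b P L).strict fun S =>
  (major K c.G (leafPar c L) S c.b).strict fun M =>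
  match L.mus with
  | [] => M
  | _ :: _ =>
    (accMus c.m.B (gcOf K.U K c b L S) L.mus).strict fun E =>
    ⟨M.e00.add (c.G.DN.mul E.e00), M.e01.add (c.G.DN.mul E.e01), M.e02.add (c.G.DN.mul E.e02),
      M.e11.add (c.G.DN.mul E.e11), M.e12.add (c.G.DN.mul E.e12), M.e22.add (c.G.DN.mul E.e22)⟩

/-- The line is a lower chord of `f ≥ semi`. -/
def lineTest (U : ℤ) (c : Ctx) (b : Box) (L : Leaf) : Bool :=
  let a := L.c0 * U + L.sl * L.ca
  let e := L.c0 * U + L.sl * L.lend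
  decide (0 ≤ a) && decide (0 ≤ e) && (decide (L.cb ≤ L.lend) || (decide (e = 0) && decide (L.sl ≤ 0))) &&
    decide (L.ca ≤ L.lend) &&
    decide (a * a * (c.D - c.Z0) ≤ U * U * (U * U * c.D - c.Z0 * (U + L.ca) * (U + L.ca))) &&
    decide (a * a * (c.D - c.Z1) ≤ U * U * (U * U * c.D - c.Z1 * (U + L.ca) * (U + L.ca))) &&
    decide (e * e * (c.D - c.Z0) ≤ U * U * (U * U * c.D - c.Z0 * (U + L.lend) * (U + L.lend))) &&
    decide (e * e * (c.D - c.Z1) ≤ U * U * (U * U * c.D - c.Z1 * (U + L.lend) * (U + L.lend)))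

/-- The Hermite data are valid. -/
def hermiteTest (p : ℕ) (U l : ℤ) (P : Piece) (L : Leaf) : Bool :=
  let p1 : ℤ := (p : ℤ) + 1
  let a := U + l
  let b := U + L.u
  let c := U + L.v
  let d := L.u - l
  let ap := a ^ p
  let bp := b ^ p
  let cp := c ^ p
  let Up := U ^ p
  let Up2 := U ^ (p - 2)
  let N1 := ap * a - bp * b + p1 * bp * d
  let b1 := bp * b
  let c1 := cp * c
  let U1 := Up * U
  let N2 := Up * (b1 - ap * b - (p : ℤ) * d * ap)
  decide (0 ≤ a) && decide (0 < d) && decide (0 < c) &&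
    decide (L.q0 * Up ≤ ap * a - U1 - p1 * l * Up) &&
    decide (L.q2 * d * d * Up2 ≤ N1) &&
    decide (L.q1 * d * (Up2 * U) ≤ p1 * (bp - Up) * d - 2 * N1) &&
    decide (L.v1 * (Up2 * U) ≤ p1 * (cp - Up)) &&
    decide (L.v0 * Up ≤ c1 - U1 - p1 * L.v * Up + p1 * (cp - Up) * (l - L.v)) &&
    decide (L.w1 * c1 ≤ (p : ℤ) * U * (c1 - U1)) &&
    decide (L.w0 * c1 ≤ U1 * c - U * c1 + (p : ℤ) * L.v * c1 + (p : ℤ) * (c1 - U1) * (l - L.v)) &&
    (if L.crude then
      decide (-U + (p : ℤ) * l ≤ L.u0) && decide ((p : ℤ) * U ≤ L.u1) && decide (0 ≤ L.u2) &&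
        decide (0 ≤ P.Kx)
    else
      decide (0 < a) && decide (U1 ≤ (L.u0 + U - (p : ℤ) * l) * ap) &&
        decide (U * U * U * N2 ≤ L.u2 * d * d * ap * b1) &&
        decide ((p : ℤ) * (b1 - U1) * d * U * ap - 2 * U * U * N2 ≤ L.u1 * d * ap * b1))

/-- The conditions of the multipliers of a leaf. -/
def musTest (P : Piece) (b : Box) (lineOk : Bool) : List (MI × ℤ × ℤ) → Bool
  | [] => true
  | (i, m0, m1) :: l =>
    decide (0 ≤ m0) && decide (0 ≤ m1) && (!i.quad || decide (m1 = 0)) &&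
      (!i.needsH || b.h.isSome) && (!i.needsBack || P.back) && (!i.needsLine || lineOk) &&
      musTest P b lineOk l

/-- The bounds on the lower end in `τ`. -/
def lowEndTest (K : KC) (P : Piece) (c : Ctx) (b : Box) (L : Leaf) : Bool :=
  let U := K.U
  if b.aBand then
    P.back && decide (0 ≤ P.al0) && decide (0 ≤ P.al1) && decide (L.ca * c.D ≤ -P.al0 * (c.D - c.Z0)) &&
      decide (L.ca * c.D ≤ -P.al1 * (c.D - c.Z0)) &&
      decide (K.ccb * c.Z1 * P.al0 ≤ K.cc * U * c.D) && decide (K.ccb * c.Z1 * P.al1 ≤ K.cc * U * c.D)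
  else
    decide (L.ca ≤ b.ta) && decide (0 ≤ K.cc * (c.D - c.Z0) * U + K.ccb * c.Z0 * b.ta) &&
      decide (0 ≤ K.cc * (c.D - c.Z1) * U + K.ccb * c.Z1 * b.ta)

/-- The bound on the coefficient of `δ τ²`. -/
def ztTest (K : KC) (e0 e1 : End) (L : Leaf) : Bool :=
  let U := K.U
  decide (((K.p : ℤ) + 4) * e0.g * U + K.k3 * U - K.cce * L.v1 ≤ L.ztu0 * U) &&
    decide (((K.p : ℤ) + 4) * e1.g * U + K.k3 * U - K.cce * L.v1 ≤ L.ztu1 * U) &&
    ((decide (L.ztu0 ≤ 0) && decide (L.ztu1 ≤ 0) && decide (L.xA * L.xA + 4 * L.xB * U ≤ 0)) ||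
      (decide (0 ≤ L.ztu0) && decide (0 ≤ L.ztu1) && decide (L.xA = L.ca + L.cb) &&
        decide (-(L.ca * L.cb) ≤ L.xB * U)))

/-- The sign of the part multiplying the excess. -/
def pickTest (K : KC) (c : Ctx) (b : Box) (P : Piece) (L : Leaf) : Bool :=
  let S := iscal b P L
  if L.pick = 0 then
    c.m.pos ((emP K c.G c.I { S with pick := 1 } c.b).smul (-1)) &&
      c.m.pos ((emP K c.G c.I { S with pick := 2 } c.b).smul (-1))
  else if L.pick = 3 then
    decide (0 ≤ L.hp0) && decide (0 ≤ L.hp1) && decide (0 ≤ L.ep0) && decide (0 ≤ L.ep1) &&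
      c.m.pos (((c.G.DN.mul (leafPar c L).hp).smul 2).sub c.b.h2) &&
      c.m.pos (emP K c.G (leafPar c L) S c.b)
  else
    c.m.pos (emP K c.G c.I S c.b) && c.m.pos (c.b.h2.smul (if L.pick = 1 then -1 else 1))

/-- `bb` is below `cb`, or `cb` is beyond the sphere on the piece. -/
def capTest (U : ℤ) (c : Ctx) (bb cb : ℤ) : Bool :=
  decide (bb ≤ cb) || (decide (0 ≤ U + cb) && decide (U * U * c.D ≤ c.Z0 * (U + cb) * (U + cb)))

/-- The test of a leaf. -/
def leafTest (K : KC) (e0 e1 : End) (P : Piece) (c : Ctx) (b : Box) (L : Leaf) : Bool :=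
  decide (L.pick ≤ 3) && decide (-K.U ≤ b.l) && lowEndTest K P c b L &&
    (if b.bBand then decide (P.bb0 ≤ L.cb) && capTest K.U c P.bb1 L.cb else decide (b.tb ≤ L.cb)) &&
    musTest P b (lineTest K.U c b L) L.mus && hermiteTest K.p K.U b.l P L && ztTest K e0 e1 L &&
    pickTest K c b P L && (six K c b P L).strict fun E => pdTest c.m c.G.S c.w E

/-- The test of a subdivision. -/
def treeTest (K : KC) (e0 e1 : End) (P : Piece) (c : Ctx) : Box → Tree → Bool
  | b, .leaf L => leafTest K e0 e1 P c b L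
  | b, .splitX m lo hi => decide (b.l ≤ m) && treeTest K e0 e1 P c { b with h := some m } lo &&
      treeTest K e0 e1 P c { b with l := m } hi
  | b, .splitT m lo hi => treeTest K e0 e1 P c { b with bBand := false, tb := m } lo &&
      treeTest K e0 e1 P c { b with aBand := false, ta := m } hi
  | b, .lowS l hb t =>
      let r := K.U + l
      decide (0 ≤ r) &&
        (if b.bBand then decide (P.bb0 ≤ hb) && capTest K.U c P.bb1 hb else decide (b.tb ≤ hb)) &&
        decide (r * r * e0.L2 * (c.D - c.Z0) ≤ K.U * (K.U * K.U * c.D - c.Z0 * (K.U + hb) * (K.U + hb))) &&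
        decide (r * r * e1.L2 * (c.D - c.Z0) ≤ K.U * (K.U * K.U * c.D - c.Z0 * (K.U + hb) * (K.U + hb))) &&
        decide (r * r * e0.L2 * (c.D - c.Z1) ≤ K.U * (K.U * K.U * c.D - c.Z1 * (K.U + hb) * (K.U + hb))) &&
        decide (r * r * e1.L2 * (c.D - c.Z1) ≤ K.U * (K.U * K.U * c.D - c.Z1 * (K.U + hb) * (K.U + hb))) &&
        treeTest K e0 e1 P c { b with l := l } t
  | b, .lowR l t => decide (0 < P.rho) && decide (K.U + l ≤ P.rho) && treeTest K e0 e1 P c { b with l := l } t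

/-- The packed potential of a cell. -/
def pots (B : ℕ) (G : Frame) (e0 e1 : End) : Pots :=
  ⟨hornerW B G.Z G.D e0.F e1.F, hornerW B G.Z G.D (dlist e0.F) (dlist e1.F),
    hornerW B G.Z G.D e0.H e1.H, hornerW B G.Z G.D (dlist e0.H) (dlist e1.H)⟩

/-- The bound of a control, scaled by `U ^ 5 D ^ (N + 3)`. -/
def piCtl (K : KC) (G : Frame) (B : ℕ) (D : ℤ) (P : List ℤ) (l0 l1 l2 : ℤ) : PK :=
  let quad := (PK.lin B stride l0 (2 * l1)).add ((PK.lin B stride 0 1).mul (PK.lin B stride 0 l2))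
  ((horner G.Z G.D P).1.add ((G.DN.mul G.D).mul (quad.smul (D * D)))).smul
    (K.U * K.U * K.U * K.U)

/-- The frame of a piece. -/
def frameOf (C : Cell) (Z0 Z1 D : ℤ) : Frame :=
  let Zp := PK.lin C.B stride Z0 Z1
  let Dp := PK.lin C.B stride D D
  ⟨Zp, Dp, Dp.sub Zp, (horner Zp Dp (C.e0.F.take C.K.N)).2⟩

/-- The parameters of a piece. -/
def parOf (C : Cell) (P : Piece) : IPar :=
  let l := PK.linW C.B
  ⟨l C.K.U C.K.U, l C.e0.g C.e1.g, l C.e0.c2 C.e1.c2, l C.e0.ell C.e1.ell, l P.al0 P.al1,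
    l P.bb0 P.bb1, PK.const 0, l C.e0.L2 C.e1.L2, l C.e0.lam C.e1.lam, l C.e0.eq C.e1.eq, PK.const 0, PK.const 0⟩

/-- The context of a piece. -/
def ctx (C : Cell) (m : Msk) (P : Piece) : Ctx :=
  let D := C.Q * C.Q
  let Z0 := P.Y0 * P.Y0
  let Z1 := P.Y1 * P.Y1
  (frameOf C Z0 Z1 D).strict fun G =>
  (parOf C P).strict fun I =>
  let L := fun (l : List ℤ) i => l.getD i 0
  { m := m, Z0 := Z0, Z1 := Z1, D := D, G := G
    DD := G.D.mul G.D, SD := G.S.mul G.D, ZD := G.Z.mul G.D, I := I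
    w := ((piCtl C.K G C.B D C.P0 (L P.L0 0) (L P.L0 1) (L P.L0 2)).add
      (((PK.linW C.B 0 2).mul (piCtl C.K G C.B D C.P1 (L P.L1 0) (L P.L1 1) (L P.L1 2))))).add
      (((PK.linW C.B 0 1).mul (PK.linW C.B 0 1)).mul
        (piCtl C.K G C.B D C.P2 (L P.L2 0) (L P.L2 1) (L P.L2 2)))
    b := base C.K G I (pots C.B G C.e0 C.e1) }

/-- `σ² ≤ 1 - y1² (1 + (i + 1) b / n)²` along the list, units `1 / U`. -/
def sigTest (U Q Y1 b n : ℤ) : ℤ → List ℤ → Bool
  | _, [] => true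
  | i, s :: l =>
    let T := Y1 * (U * n + (i + 1) * b)
    let W := Q * U * n
    (decide (s = 0) || (decide (0 ≤ s) && decide (s * s * (W * W) ≤ U * U * (W * W - T * T)))) &&
      sigTest U Q Y1 b n (i + 1) l

/-- `ρ² ≥ 1 - y0² (i / n)²` along the list. -/
def phiTest (U Q Y0 n : ℤ) : ℤ → List ℤ → Bool
  | _, [] => true
  | i, s :: l => decide (0 ≤ s) && decide (U * U * (Q * n * (Q * n) - Y0 * i * (Y0 * i)) ≤ s * s * (Q * n * (Q * n))) &&
      phiTest U Q Y0 n (i + 1) l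

/-- The sum of `p`-th powers. -/
def powSum (p : ℕ) : List ℤ → ℤ
  | [] => 0
  | s :: l => s ^ p + powSum p l

/-- The back band from the series of the tail. -/
def backTest (C : Cell) (P : Piece) : Bool :=
  decide (0 < C.e0.eps) && decide (0 ≤ C.e1.eps) && decide (C.e1.eps * P.al0 ≤ P.al1 * C.e0.eps) &&
    decide ((C.e0.eps : ℚ) * Transport.Finite.tailUp C.K.p (1 - ((P.Y0 : ℚ) / C.Q) ^ 2)
      (((P.Y0 : ℚ) / C.Q) ^ 2) ≤ (P.al0 : ℚ) * ((P.Y0 : ℚ) / C.Q))

/-- The back band near the centre, from the whole mass. -/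
def smallTest (C : Cell) (Mu : ℚ) (P : Piece) : Bool :=
  let y0 : ℚ := (P.Y0 : ℚ) / C.Q
  let v : ℚ := y0 * (1 - ((P.Y1 : ℚ) / C.Q) ^ 2) ^ ((C.K.p + 3) / 2)
  decide (0 ≤ P.al0) && decide (0 ≤ P.al1) && decide (P.Y1 ≤ C.Q) &&
    decide ((C.e0.eps : ℚ) * Mu ≤ (P.al0 : ℚ) * v) && decide ((C.e1.eps : ℚ) * Mu ≤ (P.al1 : ℚ) * v)

/-- The forward band when it leaves the sphere inside the cell: `bb0` at the lower end, beyond the top
`bt` it continues affinely to `bb1`. -/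
def mixTest (C : Cell) (P : Piece) : Bool :=
  let U := C.K.U
  let Q := C.Q
  let n : ℤ := P.phi.length
  let bt := U * (Q - P.Y0) / P.Y0 + 1
  let num := (P.bb1 - bt) * C.e0.eps + (bt - P.bb0) * C.e1.eps
  let ec := -(-num / (P.bb1 - P.bb0))
  decide (0 < P.Y0) && decide (0 < n) && decide ((P.sig0.length : ℤ) = n) &&
    decide ((P.sig1.length : ℤ) = n) && decide (P.bb0 ≤ bt) && decide (bt ≤ P.bb1) &&
    phiTest U Q P.Y0 n 0 P.phi && sigTest U Q P.Y1 P.bb0 n 0 P.sig0 &&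
    sigTest U Q P.Y1 bt n 0 P.sig1 &&
    decide (C.e0.eps * powSum C.K.p P.phi ≤ P.bb0 * powSum C.K.p P.sig0) &&
    decide (ec * powSum C.K.p P.phi ≤ bt * powSum C.K.p P.sig1)

/-- The bands and the bounds from `Reach` of a piece; `Mu`, `Ml` bound the moments. -/
def pieceTest (C : Cell) (Mu Ml : ℚ) (P : Piece) : Bool :=
  let U := C.K.U
  let Q := C.Q
  let p := C.K.p
  let n : ℤ := P.phi.length
  let D := Q * Q
  let Z0 := P.Y0 * P.Y0
  let Z1 := P.Y1 * P.Y1
  let F := powSum p P.phi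
  let p2 : ℚ := (p : ℚ) + 2
  let Uq : ℚ := U
  let s0 : ℚ := 1 - (Z0 : ℚ) / D
  let s1 : ℚ := 1 - (Z1 : ℚ) / D
  decide (0 ≤ P.Y0) && decide (P.Y0 < P.Y1) && decide (P.Y1 ≤ Q) &&
    decide (P.L0.length = 3) && decide (P.L1.length = 3) && decide (P.L2.length = 3) &&
    P.L0.all (fun x => decide (0 ≤ x)) && P.L1.all (fun x => decide (0 ≤ x)) &&
    P.L2.all (fun x => decide (0 ≤ x)) &&
    (!P.back || (decide (0 < P.Y0) &&
      ((decide (C.e0.eps * D ≤ P.al0 * ((p : ℤ) + 2) * Z0) &&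
          decide (C.e1.eps * D ≤ P.al1 * ((p : ℤ) + 2) * Z0)) ||
        backTest C P || smallTest C Mu P))) &&
    decide (0 ≤ P.bb0) && decide (P.bb0 ≤ P.bb1) &&
    (if P.ovf then
      if P.bb0 = P.bb1 then decide (U * U * D ≤ (U + P.bb0) * (U + P.bb0) * Z0) else mixTest C P
    else
      decide (0 < n) && decide ((P.sig0.length : ℤ) = n) && decide ((P.sig1.length : ℤ) = n) &&
        decide (P.Y1 * (U + P.bb1) ≤ Q * U) &&
        phiTest U Q P.Y0 n 0 P.phi && sigTest U Q P.Y1 P.bb0 n 0 P.sig0 &&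
        sigTest U Q P.Y1 P.bb1 n 0 P.sig1 &&
        decide (C.e0.eps * F ≤ P.bb0 * powSum p P.sig0) && decide (C.e1.eps * F ≤ P.bb1 * powSum p P.sig1)) &&
    decide (0 ≤ P.S0) && decide (U * U * (D - Z0) ≤ P.S0 * P.S0 * D) &&
    decide (0 ≤ P.T1 + 1) && decide (U * U * (D - Z1) ≤ (P.T1 + 1) * (P.T1 + 1) * D) &&
    (decide (P.rho ≤ 0) ||
      (decide (0 < P.T1) && decide (P.T1 * P.T1 * D ≤ U * U * (D - Z1)) &&
        decide (((P.S0 : ℚ) / Uq) ^ (p + 2) *
          (Transport.Finite.tailBQ p s0) ≤ (P.v0 : ℚ) / Uq * Mu) &&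
        decide (P.S0 ≤ P.W) &&
        decide (Mu ≤ ((P.W : ℚ) / Uq) ^ (p + 1) * ((P.T1 : ℚ) / Uq) *
          (Transport.Finite.tailBQ p s1)) &&
        decide ((P.rho : ℚ) / Uq * Mu *
          ((P.S0 : ℚ) / Uq * ((P.v0 : ℚ) / Uq) + ((p : ℚ) + 1) * ((P.W : ℚ) / Uq)) ≤ Ml * p2))) &&
    (decide (P.Kx < 0) ||
      (decide (U ≤ P.W1) && decide (p2 * Mu ≤ ((P.W1 : ℚ) / Uq) ^ (p + 1)) &&
        decide ((P.S0 : ℚ) / Uq * ((p2 * ((P.W1 : ℚ) / Uq)) * Mu) ^ p ≤
          (P.Kx : ℚ) / Uq * (Ml * p2) ^ p)))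

/-- The pieces join up from `Y` to `Q`. -/
def coverTest (Q : ℤ) : ℤ → List Piece → Bool
  | Y, [] => decide (Y = Q)
  | Y, P :: l => decide (P.Y0 = Y) && coverTest Q P.Y1 l

/-- An upper bound on `exp x` for `0 ≤ x ≤ 1`. -/
def expUp1 (x : ℚ) : ℚ :=
  1 + x + x ^ 2 / 2 + x ^ 3 / 6 + x ^ 4 / 24 + x ^ 5 / 120 + x ^ 6 * 7 / 4320

/-- An upper bound on `exp x` for `0 ≤ x ≤ 4`. -/
def expUp (x : ℚ) : ℚ := expUp1 (x / 4) ^ 4

/-- The constants at an end. -/
def endTest (C : Cell) (e : End) (k : ℚ) : Bool :=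
  let U : ℚ := C.K.U
  let m : ℚ := (C.K.p : ℚ) + 1
  decide (0 ≤ e.g) && decide (0 ≤ e.ell) && decide (e.F.length = C.K.N + 1) &&
    decide (e.H.length = C.K.N + 1) && decide (0 ≤ k) && decide (2 * k ≤ 4 * (m * m)) &&
    decide ((C.K.p : ℚ) * k ≤ 4 * (m * m)) &&
    decide ((e.c2 : ℚ) ≤ U * (1 + 2 * k / (m * (m + 1)))) &&
    decide (U * expUp (2 * k / (m * m)) ≤ e.L2) && decide (U * expUp (k / (m * m)) ≤ e.lam) &&
    decide (e.eps ≤ e.eq * ((C.K.p : ℤ) + 2)) &&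
    decide (U * (expUp ((C.K.p : ℚ) * k / (m * m)) - 1) ≤ e.eps)

/-- The scaled constants match `β = be / U`. -/
def kcTest (C : Cell) : Bool :=
  let K := C.K
  let U := K.U
  let b := C.be
  let p : ℤ := K.p
  decide (3 ≤ K.p) && decide (1 ≤ K.N) && decide (0 < U) && decide (U ≤ b) && decide (0 < C.Q) &&
    decide (K.be2 = 2 * b) && decide (K.cc = 2 * (U + b)) && decide (K.ccb * U = K.cc * (b - U)) &&
    decide (K.cce * U = K.cc * b) &&
    decide (K.k0 * U = 2 * b * (b - U) - 2 * b * U * (p + 2) - K.cc * (b - U)) &&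
    decide (K.k1 * U = 2 * b * (b - U) - 2 * b * U * (p + 2) - K.cc * (b - U) * (p + 1)) &&
    decide (K.k2 * U = 2 * b * b + (p + 2) * b * b - K.cc * b) &&
    decide (K.k3 * U = (p + 4) * b * b - (p + 1) * K.cc * b)

/-- The sum of a list times the moments, from the `j`-th one, worth `c`. -/
def momSum (p : ℕ) : ℕ → ℚ → List ℤ → ℚ
  | _, _, [] => 0
  | j, c, a :: l => (a : ℚ) * c + momSum p (j + 1) (c * (2 * (j : ℚ) + 1) / ((p : ℚ) + 2 * j + 2)) l

/-- The bound on the integral of the part of a piece, between `a = Y0 / Q` and `b = Y1 / Q`: the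
parabola in `u = (y ^ 2 - a ^ 2) / (b ^ 2 - a ^ 2)` times the chord between the bounds `(S0 / U) ^ (p - 1)`
and `((T1 + 1) / U) ^ (p - 1)` of the weight at the ends, as one fraction of integers. -/
def pieceInt (C : Cell) (P : Piece) (L : List ℤ) : ℚ :=
  let A := P.Y0
  let B := P.Y1
  let H := zsub B A
  let A2 := zmul A A
  let W := zsub (zmul B B) A2
  let c3 := zsub (zpow B 3) (zpow A 3)
  let c5 := zsub (zpow B 5) (zpow A 5)
  let c7 := zsub (zpow B 7) (zpow A 7)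
  let l0 := L.getD 0 0
  let l1 := L.getD 1 0
  let B1 := zmul 2 (zsub l1 l0)
  let B2 := zadd (zsub l0 (zmul 2 l1)) (L.getD 2 0)
  let M0 := zmul 105 (zmul (zmul W W) (zmul W H))
  let M1 := zmul (zmul 35 (zmul W W)) (zsub c3 (zmul (zmul 3 A2) H))
  let M2 := zmul (zmul 7 W) (zadd (zsub (zmul 3 c5) (zmul (zmul 10 A2) c3)) (zmul (zmul 15 (zmul A2 A2)) H))
  let M3 := zsub (zadd (zsub (zmul 15 c7) (zmul (zmul 63 A2) c5)) (zmul (zmul 105 (zmul A2 A2)) c3))
    (zmul (zmul 105 (zmul A2 (zmul A2 A2))) H)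
  let wA := zpow P.S0 (C.K.p - 1)
  let I := zadd (zmul wA (zadd (zadd (zmul l0 M0) (zmul B1 M1)) (zmul B2 M2)))
    (zmul (zsub (zpow (zadd P.T1 1) (C.K.p - 1)) wA) (zadd (zadd (zmul l0 M1) (zmul B1 M2)) (zmul B2 M3)))
  ((I : ℤ) : ℚ) /
    ((zmul (zmul (zmul 105 (zmul W (zmul W W))) C.Q) (zpow C.K.U (C.K.p - 1)) : ℤ) : ℚ)

/-- The sum over the pieces. -/
def piecesInt (C : Cell) (f : Piece → List ℤ) : List Piece → ℚ
  | [] => 0
  | P :: l => pieceInt C P (f P) + piecesInt C f l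

/-- A control has negative integral. -/
def ctlTest (C : Cell) (Pl : List ℤ) (f : Piece → List ℤ) : Bool :=
  let I := momSum C.K.p 0 1 Pl
  let L := piecesInt C f C.pieces
  decide (I * Transport.Finite.massQ (31416 / 10000) (C.K.p - 1) + L < 0) &&
    decide (I * Transport.Finite.massQ (31415 / 10000) (C.K.p - 1) + L < 0)

/-- The parts of the test of a cell outside the pieces. -/
def headTest (C : Cell) : Bool :=
  kcTest C && decide (1 ≤ C.B) && endTest C C.e0 C.kA && endTest C C.e1 C.kB && decide (C.kA < C.kB) &&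
    decide (C.P0.length = C.K.N + 4) && decide (C.P1.length = C.K.N + 4) &&
    decide (C.P2.length = C.K.N + 4) && coverTest C.Q 0 C.pieces &&
    ctlTest C C.P0 Piece.L0 && ctlTest C C.P1 Piece.L1 && ctlTest C C.P2 Piece.L2

/-- The root box of a piece. -/
def rootBox (U : ℤ) (P : Piece) : Box := ⟨P.back, -U, true, 0, -U, none⟩

/-- The test of one piece. -/
def pieceFullTest (C : Cell) (m : Msk) (P : Piece) : Bool :=
  pieceTest C (Transport.Finite.massQ (31416 / 10000) C.K.p)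
      (Transport.Finite.massQ (31415 / 10000) (C.K.p + 1)) P &&
    (ctx C m P).strict fun c => treeTest C.K C.e0 C.e1 P c (rootBox C.K.U P) P.tree

/-- The test of a cell. -/
def cellTest (C : Cell) : Bool :=
  headTest C && (Msk.of C.B C.K.N).strict fun m => C.pieces.all (pieceFullTest C m)

end Vale.Agent.P237.All.Finite
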