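import Vale.Agent.P237.All.Finite.Checker

/-!
P237, finitely many dimensions: compact encoding of the data.  A number packs signed fields of 80 bits,
low end first; a value `v` is stored as `2 v` or, when negative, `-2 v - 1`.  The tests of a cell check
whatever is decoded, so nothing about the decoding needs proof.
-/

noncomputable section

namespace Vale.Agent.P237.All.Finite

/-- The `i`-th packed field. -/
def field (n i : ℕ) : ℕ := Nat.mod (Nat.div n (Nat.pow 2 (Nat.mul 80 i))) 1208925819614629174706176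

/-- The signed value of a field. -/
def sval (v : ℕ) : ℤ :=
  Bool.rec (Int.negSucc (Nat.div v 2)) (Int.ofNat (Nat.div v 2)) (Nat.beq (Nat.mod v 2) 0)

/-- The `i`-th signed field. -/
def getZ (n i : ℕ) : ℤ := sval (field n i)

/-- Evaluates an integer before passing it on, in one recursor step. -/
def sZ {α : Type} (z : ℤ) (k : ℤ → α) : α :=
  Int.rec (fun n => forceN n fun n => k (Int.ofNat n)) (fun n => forceN n fun n => k (Int.negSucc n)) z

/-- A product of constraints from its number, by bisection (one Boolean recursor per step). -/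
def miOf (n : ℕ) : MI :=
  Bool.rec (Bool.rec (Bool.rec .fsV .fsU (Nat.ble n 26)) (Bool.rec .taV .taU (Nat.ble n 24)) (Nat.ble n 25))
  (Bool.rec (Bool.rec (Bool.rec (Bool.rec .hl (Bool.rec .ltb .lta (Nat.ble n 21)) (Nat.ble n 22))
    (Bool.rec .ab (Bool.rec .xzb .zb (Nat.ble n 18)) (Nat.ble n 19)) (Nat.ble n 20)) (Bool.rec
    (Bool.rec .xkb (Bool.rec .kb .xka (Nat.ble n 15)) (Nat.ble n 16)) (Bool.rec .ka (Bool.rec
    .xline .line (Nat.ble n 12)) (Nat.ble n 13)) (Nat.ble n 14)) (Nat.ble n 17)) (Bool.rec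
    (Bool.rec (Bool.rec .hbt (Bool.rec .hta .xh (Nat.ble n 9)) (Nat.ble n 10)) (Bool.rec .xbt
    (Bool.rec .xta .fs (Nat.ble n 6)) (Nat.ble n 7)) (Nat.ble n 8)) (Bool.rec (Bool.rec .xone
    (Bool.rec .one .bt (Nat.ble n 3)) (Nat.ble n 4)) (Bool.rec .ta (Bool.rec .hx .x (Nat.ble n 0))
    (Nat.ble n 1)) (Nat.ble n 2)) (Nat.ble n 5)) (Nat.ble n 11)) (Nat.ble n 23)

/-- Signed fields, evaluated. -/
def getList {α : Type} (n : ℕ) : ℕ → ℕ → (List ℤ → α) → α
  | _, 0, k => k []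
  | i, c + 1, k => sZ (getZ n i) fun a => getList n (Nat.add i 1) c fun l => k (a :: l)

/-- Signed fields, left to be evaluated by whoever reads them. -/
def getLazy (n : ℕ) : ℕ → ℕ → List ℤ
  | _, 0 => []
  | i, c + 1 => getZ n i :: getLazy n (Nat.add i 1) c

/-- Multipliers, three fields each, evaluated. -/
def getMus {α : Type} (n : ℕ) : ℕ → ℕ → (List (MI × ℤ × ℤ) → α) → α
  | _, 0, k => k []
  | i, c + 1, k =>
    forceN (field n i) fun t => sZ (getZ n (Nat.add i 1)) fun a => sZ (getZ n (Nat.add i 2)) fun b =>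
      getMus n (Nat.add i 3) c fun l => k ((miOf t, a, b) :: l)

/-- A packed leaf: the fields in their order, `crude` as 0 or 1, then the number of multipliers. -/
def leafOf (n : ℕ) : Tree :=
  sZ (getZ n 0) fun z0 =>
  sZ (getZ n 1) fun z1 =>
  sZ (getZ n 2) fun z2 =>
  sZ (getZ n 3) fun z3 =>
  sZ (getZ n 4) fun z4 =>
  sZ (getZ n 5) fun z5 =>
  sZ (getZ n 6) fun z6 =>
  sZ (getZ n 7) fun z7 =>
  sZ (getZ n 8) fun z8 =>
  sZ (getZ n 9) fun z9 =>
  sZ (getZ n 10) fun z10 =>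
  sZ (getZ n 11) fun z11 =>
  sZ (getZ n 12) fun z12 =>
  sZ (getZ n 13) fun z13 =>
  sZ (getZ n 16) fun z16 =>
  sZ (getZ n 17) fun z17 =>
  sZ (getZ n 18) fun z18 =>
  sZ (getZ n 19) fun z19 =>
  sZ (getZ n 20) fun z20 =>
  sZ (getZ n 21) fun z21 =>
  sZ (getZ n 22) fun z22 =>
  sZ (getZ n 23) fun z23 =>
  sZ (getZ n 24) fun z24 =>
  sZ (getZ n 25) fun z25 =>
  sZ (getZ n 26) fun z26 =>
  forceN (field n 15) fun pick =>
  getMus n 28 (field n 27) fun mus =>
  .leaf ⟨z0, z1, z2, z3, z4, z5, z6, z7, z8, z9, z10, z11, z12, z13,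
    Nat.beq (field n 14) 1, pick, z16, z17, z18, z19, z20, z21, z22, z23, z24, z25, z26, mus⟩

/-- A packed piece: the scalar fields, flags as 0 or 1, the common length of the lists and the lists. -/
def pieceOf (n : ℕ) (t : Tree) : Piece :=
  sZ (getZ n 0) fun z0 =>
  sZ (getZ n 1) fun z1 =>
  sZ (getZ n 3) fun z3 =>
  sZ (getZ n 4) fun z4 =>
  sZ (getZ n 6) fun z6 =>
  sZ (getZ n 7) fun z7 =>
  sZ (getZ n 8) fun z8 =>
  sZ (getZ n 9) fun z9 =>
  sZ (getZ n 10) fun z10 =>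
  sZ (getZ n 11) fun z11 =>
  sZ (getZ n 12) fun z12 =>
  sZ (getZ n 13) fun z13 =>
  sZ (getZ n 14) fun z14 =>
  forceN (field n 15) fun c =>
  getList n 16 3 fun l0 => getList n 19 3 fun l1 => getList n 22 3 fun l2 =>
  ⟨z0, z1, Nat.beq (field n 2) 1, z3, z4, Nat.beq (field n 5) 1, z6, z7, getLazy n 25 c,
    getLazy n (Nat.add 25 c) c, getLazy n (Nat.add (Nat.add 25 c) c) c, z8, z9, z10, z11, z12, z13, z14,
    l0, l1, l2, t⟩

end Vale.Agent.P237.All.Finite
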