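import Vale.Agent.P237.All.Finite.Poly
import Mathlib.Analysis.Calculus.Deriv.Pow
import Mathlib.Analysis.Calculus.Deriv.Add
import Mathlib.Analysis.Calculus.Deriv.Mul

/-!
P237, finitely many dimensions: homogenised Horner evaluation of a coefficient list on a piece, and
the derivative list.
-/

noncomputable section

namespace Vale.Agent.P237.All.Finite

/-- The homogenised value of a list and the next power of the denominator. -/
def horner (Z D : PK) : List ℤ → PK × PK
  | [] => (PK.const 0, PK.const 1)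
  | c :: cs => let r := horner Z D cs; ((PK.smul c r.2).add (Z.mul r.1), r.2.mul D)

/-- The derivative list, from the power `i` on. -/
def dlistAux : ℕ → List ℤ → List ℤ
  | _, [] => []
  | i, c :: cs => ((i + 1 : ℕ) : ℤ) * c :: dlistAux (i + 1) cs

/-- The derivative list. -/
def dlist : List ℤ → List ℤ
  | [] => []
  | _ :: cs => dlistAux 0 cs

variable {B S : ℕ} {Z D : PK} {fZ fD zf : ℝ → ℝ}

theorem horner_rep (hZ : Rep B S 0 Z fun X _ => fZ X) (hD : Rep B S 0 D fun X _ => fD X)
    (h : ∀ X, 0 ≤ X → fZ X = fD X * zf X) :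
    ∀ cs : List ℤ, Rep B S 0 (horner Z D cs).2 (fun X _ => fD X ^ cs.length) ∧
      Rep B S 0 (horner Z D cs).1 (fun X _ => fD X ^ (cs.length - 1) * ev (zf X) cs)
  | [] => ⟨(Rep.const 1).congr fun X W => by simp, (Rep.const 0).congr fun X W => by simp [ev]⟩
  | c :: cs => by
    obtain ⟨h2, h1⟩ := horner_rep hZ hD h cs
    refine ⟨(h2.mul hD).congr fun X W => by simp [pow_succ],
      ((h2.smul c).add (hZ.mul h1)).congr' fun X W hX _ => ?_⟩
    cases cs with
    | nil => simp [ev]
    | cons d ds => simp only [List.length_cons, Nat.add_sub_cancel, ev, h X hX, pow_succ]; ring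

/-- The value that is affine in `W`, from the values at both ends. -/
def hornerW (B : ℕ) (Z D : PK) (c0 c1 : List ℤ) : PK :=
  (horner Z D c0).1.add ((PK.linW B 0 1).mul (horner Z D c1).1)

theorem hornerW_rep (hZ : Rep B S 0 Z fun X _ => fZ X) (hD : Rep B S 0 D fun X _ => fD X)
    (h : ∀ X, 0 ≤ X → fZ X = fD X * zf X) {n : ℕ} {c0 c1 : List ℤ} (h0 : c0.length = n + 1)
    (h1 : c1.length = n + 1) :
    Rep B S 1 (hornerW B Z D c0 c1) fun X W => fD X ^ n * (ev (zf X) c0 + W * ev (zf X) c1) := by
  have a := (horner_rep hZ hD h c0).2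
  have b := (Rep.linW (B := B) (S := S) 0 1).mul (horner_rep hZ hD h c1).2
  refine ((a.add b).mono (by simp)).congr fun X W => ?_
  simp only [h0, h1, Nat.add_sub_cancel]
  push_cast; ring

theorem ev_hasDerivAt : ∀ (cs : List ℤ) (x : ℝ),
    HasDerivAt (fun x => ev x cs) (ev x (dlist cs)) x ∧
      ∀ i : ℕ, HasDerivAt (fun x => x ^ (i + 1) * ev x cs) (x ^ i * ev x (dlistAux i cs)) x
  | [], x => ⟨by simpa [ev, dlist] using hasDerivAt_const x (0 : ℝ), fun i => by
      simpa [ev, dlistAux] using hasDerivAt_const x (0 : ℝ)⟩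
  | c :: cs, x => by
    obtain ⟨-, ih2⟩ := ev_hasDerivAt cs x
    constructor
    · have := (ih2 0).const_add (c : ℝ)
      simpa [ev, dlist] using this
    · intro i
      have h := ((hasDerivAt_pow (i + 1) x).mul_const (c : ℝ)).add (ih2 (i + 1))
      refine (h.congr_deriv ?_).congr_of_eventuallyEq (Filter.Eventually.of_forall fun y => ?_)
      · simp only [ev, dlistAux, Nat.add_sub_cancel, pow_succ]; push_cast; ring
      · simp only [ev, Pi.add_apply, pow_succ]; ring

end Vale.Agent.P237.All.Finite
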