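import Vale.Agent.P237.All.Finite.Majorant
import Vale.Agent.P237.All.Finite.Horner

/-!
P237, finitely many dimensions: the coefficients of the majorant as packed polynomials on a piece.
With `D` the denominator, `z = Z / D` and all data scaled by the unit `U`, an entry is
`U ^ 5 D ^ (N + 2)` times the real coefficient.
-/

noncomputable section

namespace Vale.Agent.P237.All.Finite

open Transport.Finite (Par Scal)

/-- The scaled constants of a cell: dimension, degree, unit, `2 β U`, `c U`, `c (β - 1) U`, `c β U`,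
`k₀ U`, `k₁ U`, `k₂ U`, `k₃ U`. -/
structure KC where
  p : ℕ
  N : ℕ
  U : ℤ
  be2 : ℤ
  cc : ℤ
  ccb : ℤ
  cce : ℤ
  k0 : ℤ
  k1 : ℤ
  k2 : ℤ
  k3 : ℤ

/-- The scaled constants match `β`. -/
def KC.Ok (K : KC) (be : ℝ) : Prop :=
  (K.be2 : ℝ) = 2 * be * K.U ∧ (K.cc : ℝ) = Transport.Finite.cc be * K.U ∧
    (K.ccb : ℝ) = Transport.Finite.cc be * (be - 1) * K.U ∧
    (K.cce : ℝ) = Transport.Finite.cc be * be * K.U ∧
    (K.k0 : ℝ) = Transport.Finite.k0 K.p be * K.U ∧ (K.k1 : ℝ) = Transport.Finite.k1 K.p be * K.U ∧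
    (K.k2 : ℝ) = Transport.Finite.k2 K.p be * K.U ∧ (K.k3 : ℝ) = Transport.Finite.k3 K.p be * K.U

/-- The packed parameters, of degree one in `W`, except the potential. -/
structure IPar where
  o : PK
  g : PK
  c2 : PK
  ell : PK
  al : PK
  bb : PK
  ztu : PK
  L2 : PK
  lam : PK
  eq : PK
  hp : PK
  ep : PK

/-- The scaled constants of a region. -/
structure IScal where
  l : ℤ
  aBand : Bool
  ta : ℤ
  bBand : Bool
  tb : ℤ
  q0 : ℤ
  q1 : ℤ
  q2 : ℤ
  v0 : ℤ
  v1 : ℤ
  u0 : ℤ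
  u1 : ℤ
  u2 : ℤ
  w0 : ℤ
  w1 : ℤ
  xA : ℤ
  xB : ℤ
  K : ℤ
  pick : ℕ

/-- The real constants. -/
def IScal.real (U : ℝ) (S : IScal) : Scal :=
  ⟨S.l / U, S.aBand, S.ta / U, S.bBand, S.tb / U, S.q0 / U, S.q1 / U, S.q2 / U, S.v0 / U, S.v1 / U,
    S.u0 / U, S.u1 / U, S.u2 / U, S.w0 / U, S.w1 / U, S.xA / U, S.xB / U, S.K / U, S.pick⟩

/-- The packed frame of a piece: `Z`, `D`, `D - Z` and `D ^ N`. -/
structure Frame where
  Z : PK
  D : PK
  S : PK
  DN : PK

/-- The packed potential `f`, `f'` (one degree less), `h`, `h'`. -/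
structure Pots where
  F : PK
  Fd : PK
  H : PK
  Hd : PK

/-- The parts of the entries that do not depend on the region. -/
structure Base where
  b00 : PK
  bcd : PK
  bct : PK
  bcdt : PK
  bctt : PK
  bsf : PK
  bsh : PK
  bof : PK
  h2 : PK

/-- The base of a parameter set; the parts are scaled by `U ^ 4` (`bof`: `U ^ 3`, `h2`: `U`). -/
def base (K : KC) (G : Frame) (I : IPar) (V : Pots) : Base :=
  let U := K.U
  (G.DN.mul G.D).strict fun DN1 =>
  (((G.Z.mul (I.o.smul ((K.p : ℤ) + 4))).sub (G.D.mul I.c2)).mul I.g).strict fun gt =>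
  (I.o.mul I.o).strict fun oo =>
  (I.o.mul I.g).strict fun og =>
  (V.F.mul G.D).strict fun FD =>
  (V.H.mul G.D).strict fun HD =>
  (G.S.mul FD).strict fun SFD =>
  (G.S.mul HD).strict fun SHD =>
  { b00 := (DN1.mul (gt.add
      (((G.Z.smul ((K.p : ℤ) + 2)).add (G.D.sub (G.S.smul 2))).mul oo))).smul (U * U)
    bcd := (((DN1.mul (((((G.D.mul (I.o.mul I.ell)).smul U).add (gt.smul U)).add
        ((G.S.mul oo).smul (K.be2 - ((K.p : ℤ) + 1) * K.cc))).add
        ((((G.Z.smul ((K.p : ℤ) + 2)).add G.D).mul oo).smul U))).sub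
        ((SFD.mul I.o).smul ((K.p : ℤ) * U))).smul U)
    bct := ((DN1.mul (G.Z.mul ((og.smul (2 * ((K.p : ℤ) + 4) * U)).add (oo.smul K.k0)))).add
        (((G.Z.mul (((G.S.mul (V.Fd.mul G.D)).smul 2).sub
          (FD.smul ((K.p : ℤ) + 3)))).mul I.o).smul U)).smul U
    bcdt := (((DN1.mul (G.Z.mul ((og.smul (2 * ((K.p : ℤ) + 4) * U)).add (oo.smul K.k1)))).sub
        ((SHD.mul I.o).smul (2 * (K.p : ℤ) * U)))).smul U
    bctt := ((DN1.mul (G.Z.mul ((og.smul (((K.p : ℤ) + 4) * U)).add (oo.smul K.k2)))).add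
        (((((G.Z.mul (G.S.mul (V.Hd.mul G.D))).smul 2).sub
          ((G.Z.mul HD).smul ((K.p : ℤ) + 3))).sub SHD).mul I.o |>.smul U)).smul U
    bsf := (SFD.mul I.o).smul (U * U)
    bsh := (SHD.mul I.o).smul (U * U)
    bof := (V.F.mul I.o).smul U
    h2 := V.H.smul 2 }

/-- The base with evaluated fields. -/
noncomputable def Base.strict {α : Sort _} : Base → (Base → α) → α
  | ⟨a1, a2, a3, a4, a5, a6, a7, a8, a9⟩, k =>
    a1.strict fun x1 => a2.strict fun x2 => a3.strict fun x3 => a4.strict fun x4 => a5.strict fun x5 =>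
    a6.strict fun x6 => a7.strict fun x7 => a8.strict fun x8 => a9.strict fun x9 =>
    k ⟨x1, x2, x3, x4, x5, x6, x7, x8, x9⟩

theorem Base.strict_eq {α : Sort _} (b : Base) (k : Base → α) : b.strict k = k b := by
  simp [Base.strict, PK.strict_eq]

/-- The frame with evaluated fields. -/
noncomputable def Frame.strict {α : Sort _} : Frame → (Frame → α) → α
  | ⟨a, b, c, d⟩, k => a.strict fun a => b.strict fun b => c.strict fun c => d.strict fun d =>
    k ⟨a, b, c, d⟩

theorem Frame.strict_eq {α : Sort _} (G : Frame) (k : Frame → α) : G.strict k = k G := by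
  simp [Frame.strict, PK.strict_eq]

/-- The six coefficients of the majorant. -/
structure Six where
  e00 : PK
  e01 : PK
  e02 : PK
  e11 : PK
  e12 : PK
  e22 : PK

/-- The six coefficients, evaluated. -/
noncomputable def Six.strict {α : Sort _} : Six → (Six → α) → α
  | ⟨a, b, c, d, e, f⟩, k => a.strict fun a => b.strict fun b => c.strict fun c => d.strict fun d =>
    e.strict fun e => f.strict fun f => k ⟨a, b, c, d, e, f⟩

theorem Six.strict_eq {α : Sort _} (E : Six) (k : Six → α) : E.strict k = k E := by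
  simp [Six.strict, PK.strict_eq]

/-- The lower end in `τ`, scaled by `U ^ 2` and one power of `D`. -/
def eaP (K : KC) (G : Frame) (I : IPar) (S : IScal) : PK :=
  if S.aBand then (G.S.mul I.al).smul (-K.U) else (G.D.mul I.o).smul S.ta

/-- The upper end, likewise. -/
def ebP (K : KC) (G : Frame) (I : IPar) (S : IScal) : PK :=
  if S.bBand then (G.D.mul I.bb).smul K.U else (G.D.mul I.o).smul S.tb

/-- The bound on `e / s`, scaled by `U ^ 3` and `D ^ (N + 1)`. -/
def emP (K : KC) (G : Frame) (I : IPar) (S : IScal) (b : Base) : PK :=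
  if S.pick = 0 then PK.const 0
  else if S.pick = 1 then (b.bof.mul G.D).add (b.h2.mul (eaP K G I S))
  else if S.pick = 2 then (b.bof.mul G.D).add (b.h2.mul (ebP K G I S))
  else ((b.bof.mul G.D).add (b.h2.mul (eaP K G I S))).add
    (G.DN.mul (((((ebP K G I S).sub (eaP K G I S)).mul I.hp).smul 2).add
      (((I.o.mul I.ep).mul G.D).smul K.U)))

/-- The coefficient of `R₁`, scaled by `U ^ 3` and `D ^ 2`. -/
def cmP (K : KC) (G : Frame) (I : IPar) (S : IScal) : PK :=
  (((G.S.mul I.o).mul G.D).smul (K.cc * K.U)).add ((G.Z.mul (eaP K G I S)).smul K.ccb)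

/-- The coefficients, scaled by `U ^ 5`. -/
def major (K : KC) (G : Frame) (I : IPar) (S : IScal) (b : Base) : Six :=
  let U := K.U
  (G.DN.mul G.D).strict fun DN1 =>
  (G.Z.mul I.o).strict fun zo =>
  (emP K G I S b).strict fun em =>
  (G.S.mul em).strict fun sem =>
  (eaP K G I S).strict fun ea =>
  ((cmP K G I S).mul I.o).strict fun cmo =>
  ((zo.mul ea).smul K.ccb).strict fun zea =>
  (zo.mul I.ztu).strict fun zz =>
  (zo.mul I.o).strict fun zoo =>
  { e00 := ((((b.b00.smul U).add (b.bcd.smul S.l)).add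
      (G.DN.mul ((zea.smul S.v0).sub (cmo.smul S.q0)))).add
      ((sem.smul ((S.u0 - S.w0) * U)).add (b.bsf.smul S.w0))).add ((em.mul G.D).smul (S.K * U))
    e01 := (((b.bcd.smul U).add
      (G.DN.mul (((zea.smul S.v1).sub (cmo.smul S.q1)).add ((zz.mul G.D).smul (S.xB * U * U))))).add
      ((sem.smul ((S.u1 - S.w1) * U)).add (b.bsf.smul S.w1)))
    e02 := (((b.bct.smul U).add (b.bcdt.smul S.l)).sub ((DN1.mul zoo).smul (K.ccb * S.v0 * U))).add
      (b.bsh.smul (2 * S.w0))
    e11 := (sem.smul (S.u2 * U)).sub ((G.DN.mul cmo).smul S.q2)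
    e12 := ((b.bcdt.smul U).add (DN1.mul ((zz.smul (S.xA * U * U)).sub (zoo.smul (K.ccb * S.v1 * U))))).add
      (b.bsh.smul (2 * S.w1))
    e22 := (b.bctt.smul U).add (DN1.mul ((((zo.mul I.g).smul (S.l * (((K.p : ℤ) + 4) * U))).add
      (zoo.smul (S.l * K.k3 - K.cce * S.v0))).smul U)) }

/-- What a frame represents. -/
structure Frame.Sem (B M : ℕ) (G : Frame) (N : ℕ) (d z : ℝ → ℝ) : Prop where
  hZ : Rep B M 0 G.Z fun X _ => d X * z X
  hD : Rep B M 0 G.D fun X _ => d X
  hS : Rep B M 0 G.S fun X _ => d X * (1 - z X)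
  hN : Rep B M 0 G.DN fun X _ => d X ^ N

/-- What the packed parameters represent. -/
structure IPar.Sem (B M : ℕ) (I : IPar) (U : ℝ) (P : ℝ → ℝ → Par) : Prop where
  ho : Rep B M 1 I.o fun X W => U * (P X W).o
  hg : Rep B M 1 I.g fun X W => U * (P X W).g
  hc2 : Rep B M 1 I.c2 fun X W => U * (P X W).c2
  hell : Rep B M 1 I.ell fun X W => U * (P X W).ell
  hal : Rep B M 1 I.al fun X W => U * (P X W).al
  hbb : Rep B M 1 I.bb fun X W => U * (P X W).bb
  hztu : Rep B M 1 I.ztu fun X W => U * (P X W).ztu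
  hhp : Rep B M 1 I.hp fun X W => U * (P X W).hp
  hep : Rep B M 1 I.ep fun X W => U * (P X W).ep

/-- What the packed potential represents. -/
structure Pots.Sem (B M : ℕ) (V : Pots) (G : Frame) (N : ℕ) (U : ℝ) (d : ℝ → ℝ)
    (P : ℝ → ℝ → Par) : Prop where
  hF : Rep B M 1 V.F fun X W => U * d X ^ N * (P X W).f
  hFd : Rep B M 1 (V.Fd.mul G.D) fun X W => U * d X ^ N * (P X W).fd
  hH : Rep B M 1 V.H fun X W => U * d X ^ N * (P X W).h
  hHd : Rep B M 1 (V.Hd.mul G.D) fun X W => U * d X ^ N * (P X W).hd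

variable {B M : ℕ} {K : KC} {be : ℝ} {G : Frame} {I : IPar} {S : IScal} {V : Pots}
  {d z : ℝ → ℝ} {P : ℝ → ℝ → Par}

section
open Transport.Finite

/-- The semantics of a base. -/
structure Base.Sem (B M : ℕ) (b : Base) (K : KC) (be : ℝ) (d z : ℝ → ℝ) (P : ℝ → ℝ → Par) : Prop where
  h00 : Rep B M 2 b.b00 fun X W => (K.U : ℝ) ^ 4 * d X ^ (K.N + 2) * c00 K.p (z X) (P X W)
  hcd : Rep B M 2 b.bcd fun X W => (K.U : ℝ) ^ 4 * d X ^ (K.N + 2) * cd K.p be (z X) (P X W)
  hct : Rep B M 2 b.bct fun X W => (K.U : ℝ) ^ 4 * d X ^ (K.N + 2) * ct K.p be (z X) (P X W)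
  hcdt : Rep B M 2 b.bcdt fun X W => (K.U : ℝ) ^ 4 * d X ^ (K.N + 2) * cdt K.p be (z X) (P X W)
  hctt : Rep B M 2 b.bctt fun X W => (K.U : ℝ) ^ 4 * d X ^ (K.N + 2) * ctt K.p be (z X) (P X W)
  hsf : Rep B M 2 b.bsf fun X W =>
    (K.U : ℝ) ^ 4 * d X ^ (K.N + 2) * ((P X W).o * ((1 - z X) * (P X W).f))
  hsh : Rep B M 2 b.bsh fun X W =>
    (K.U : ℝ) ^ 4 * d X ^ (K.N + 2) * ((P X W).o * ((1 - z X) * (P X W).h))
  hof : Rep B M 2 b.bof fun X W => (K.U : ℝ) ^ 3 * d X ^ K.N * ((P X W).o * (P X W).f)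
  hh2 : Rep B M 1 b.h2 fun X W => (K.U : ℝ) * d X ^ K.N * (2 * (P X W).h)

theorem base_sem (hK : K.Ok be) (hG : G.Sem B M K.N d z) (hI : I.Sem B M K.U P)
    (hV : V.Sem B M G K.N K.U d P) : (base K G I V).Sem B M K be d z P := by
  obtain ⟨hZ, hD, hS, hN⟩ := hG
  obtain ⟨hF, hFd, hH, hHd⟩ := hV
  obtain ⟨ho, hg, hc2, hell, hal, hbb, hztu, -, -⟩ := hI
  obtain ⟨e1, e2, e3, e4, e5, e6, e7, e8⟩ := hK
  constructor <;>
    (refine Rep.congr (Rep.mono (by
      simp only [base, PK.strict_eq]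
      repeat first
        | exact hFd | exact hHd | exact hZ | exact hD | exact hS | exact hN | exact hF | exact hH
        | exact ho | exact hg | exact hc2 | exact hell
        | with_reducible apply Rep.add | with_reducible apply Rep.sub | with_reducible apply Rep.smul
        | with_reducible apply Rep.mul) (by simp)) fun X W => ?_
     try simp only [c00, cd, ct, cdt, ctt, gterm]
     push_cast
     try simp only [e1, e2, e5, e6, e7]
     try ring)

theorem eaP_sem (hG : G.Sem B M K.N d z) (hI : I.Sem B M K.U P) :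
    Rep B M 1 (eaP K G I S) (fun X W => (K.U : ℝ) ^ 2 * d X * (S.real K.U).ea (z X) (P X W)) := by
  rw [eaP]
  rcases eq_or_ne (K.U : ℝ) 0 with hU | hU
  · cases hb : S.aBand <;> simp only [Bool.false_eq_true, if_false, if_true]
    · exact ((hG.hD.mul hI.ho).smul _).congr fun X W => by simp [hU]
    · exact ((hG.hS.mul hI.hal).smul _).congr fun X W => by simp [hU]
  cases hb : S.aBand <;> simp only [Bool.false_eq_true, if_false, if_true]
  · refine ((hG.hD.mul hI.ho).smul _).congr fun X W => ?_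
    simp only [Scal.ea, IScal.real, hb, Bool.false_eq_true, if_false]
    field_simp
  · refine ((hG.hS.mul hI.hal).smul _).congr fun X W => ?_
    simp only [Scal.ea, IScal.real, hb, if_true]
    push_cast; ring

theorem ebP_sem (hU : (K.U : ℝ) ≠ 0) (hG : G.Sem B M K.N d z) (hI : I.Sem B M K.U P) :
    Rep B M 1 (ebP K G I S) (fun X W => (K.U : ℝ) ^ 2 * d X * (S.real K.U).eb (P X W)) := by
  rw [ebP]
  cases hb : S.bBand <;> simp only [Bool.false_eq_true, if_false, if_true]
  · refine ((hG.hD.mul hI.ho).smul _).congr fun X W => ?_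
    simp only [Scal.eb, IScal.real, hb, Bool.false_eq_true, if_false]
    field_simp
  · refine ((hG.hD.mul hI.hbb).smul _).congr fun X W => ?_
    simp only [Scal.eb, IScal.real, hb, if_true]
    ring

theorem emP_sem {b : Base} (hU : (K.U : ℝ) ≠ 0) (hG : G.Sem B M K.N d z) (hI : I.Sem B M K.U P)
    (hb : b.Sem B M K be d z P) :
    Rep B M 2 (emP K G I S b) (fun X W => (K.U : ℝ) ^ 3 * d X ^ (K.N + 1) *
      (S.real K.U).em (z X) (P X W)) := by
  have hA := eaP_sem (S := S) hG hI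
  have hB := ebP_sem (S := S) hU hG hI
  have hp : (S.real (K.U : ℝ)).pick = S.pick := rfl
  rw [emP]
  rcases (show S.pick = 0 ∨ S.pick = 1 ∨ S.pick = 2 ∨ (¬S.pick = 0 ∧ ¬S.pick = 1 ∧ ¬S.pick = 2) by omega)
    with h0 | h0 | h0 | ⟨h0, h1, h2⟩
  · rw [if_pos h0]
    exact ((Rep.const 0).mono (by simp)).congr fun X W => by simp [Scal.em, hp, h0]
  · rw [if_neg (by omega), if_pos h0]
    refine (((hb.hof.mul hG.hD).add (hb.hh2.mul hA)).mono (by simp)).congr fun X W => ?_
    simp only [Scal.em, hp, h0, one_ne_zero, if_false, if_true, pow_succ]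
    ring
  · rw [if_neg (by omega), if_neg (by omega), if_pos h0]
    refine (((hb.hof.mul hG.hD).add (hb.hh2.mul hB)).mono (by simp)).congr fun X W => ?_
    simp only [Scal.em, hp, h0, OfNat.ofNat_ne_zero, OfNat.ofNat_ne_one, if_false, if_true, pow_succ]
    ring
  · rw [if_neg h0, if_neg h1, if_neg h2]
    refine ((((hb.hof.mul hG.hD).add (hb.hh2.mul hA)).add (hG.hN.mul
      ((((hB.sub hA).mul hI.hhp).smul 2).add (((hI.ho.mul hI.hep).mul hG.hD).smul K.U)))).mono
      (by simp)).congr fun X W => ?_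
    simp only [Scal.em, hp, h0, h1, h2, if_false, pow_succ]
    push_cast
    ring

theorem cmP_sem (hK : K.Ok be) (hG : G.Sem B M K.N d z) (hI : I.Sem B M K.U P) :
    Rep B M 1 (cmP K G I S) (fun X W => (K.U : ℝ) ^ 3 * d X ^ 2 *
      (S.real K.U).cm be (z X) (P X W)) := by
  have hA := eaP_sem (S := S) hG hI
  obtain ⟨hZ, hD, hS, hN⟩ := hG
  obtain ⟨e1, e2, e3, e4, e5, e6, e7, e8⟩ := hK
  rw [cmP]
  refine (((((hS.mul hI.ho).mul hD).smul _).add ((hZ.mul hA).smul _)).mono (by simp)).congr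
    fun X W => ?_
  simp only [Scal.cm]
  push_cast
  simp only [e2, e3]
  ring

/-- The semantics of the six coefficients. -/
theorem major_sem {b : Base} (hU : (K.U : ℝ) ≠ 0) (hK : K.Ok be) (hG : G.Sem B M K.N d z)
    (hI : I.Sem B M K.U P) (hb : b.Sem B M K be d z P) :
    let C := fun X => (K.U : ℝ) ^ 5 * d X ^ (K.N + 2)
    let T := S.real K.U
    Rep B M 2 (major K G I S b).e00 (fun X W => C X * T.e00 K.p be (z X) (P X W)) ∧
    Rep B M 2 (major K G I S b).e01 (fun X W => C X * T.e01 K.p be (z X) (P X W)) ∧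
    Rep B M 2 (major K G I S b).e02 (fun X W => C X * T.e02 K.p be (z X) (P X W)) ∧
    Rep B M 2 (major K G I S b).e11 (fun X W => C X * T.e11 be (z X) (P X W)) ∧
    Rep B M 2 (major K G I S b).e12 (fun X W => C X * T.e12 K.p be (z X) (P X W)) ∧
    Rep B M 2 (major K G I S b).e22 (fun X W => C X * T.e22 K.p be (z X) (P X W)) := by
  intro C T
  have hA := eaP_sem (S := S) hG hI
  have hM := emP_sem (S := S) hU hG hI hb
  have hC := cmP_sem (S := S) hK hG hI
  obtain ⟨hZ, hD, hS, hN⟩ := hG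
  obtain ⟨h00, hcd, hct, hcdt, hctt, hsf, hsh, hof, hh2⟩ := hb
  obtain ⟨ho, hg, hc2, hell, hal, hbb, hztu, -, -⟩ := hI
  obtain ⟨e1, e2, e3, e4, e5, e6, e7, e8⟩ := hK
  refine ⟨?_, ?_, ?_, ?_, ?_, ?_⟩ <;>
    (refine Rep.congr (Rep.mono (by
      simp only [major, PK.strict_eq]
      repeat first
        | exact h00 | exact hcd | exact hct | exact hcdt | exact hctt | exact hsf | exact hsh
        | exact hA | exact hM | exact hC | exact hZ | exact hD | exact hS | exact hN
        | exact ho | exact hg | exact hztu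
        | with_reducible apply Rep.add | with_reducible apply Rep.sub | with_reducible apply Rep.smul
        | with_reducible apply Rep.mul) (by simp)) fun X W => ?_
     simp only [C, T, Scal.e00, Scal.e01, Scal.e02, Scal.e11, Scal.e12, Scal.e22, zc]
     simp only [IScal.real]
     push_cast
     try simp only [e2, e3, e4, e8]
     field_simp
     try ring)

end

end Vale.Agent.P237.All.Finite
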