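import Vale.Agent.P237.All.TailExplicit
import Vale.Agent.P237.All.Finite.Hermite

/-!
P237, finitely many dimensions: what the hypotheses of a certificate leave of `(δ, τ)`, `δ = r - 1`,
`τ = t / y - 1`, on a piece `y0 ≤ y ≤ y1`: bands, lower bounds on `r`, chords of `f ≥ semi`.
-/

noncomputable section

open MeasureTheory Set Real intervalIntegral

namespace Vale.Agent.P237.All.Transport.Finite

open Vale.Agent.P237.All.Finite (psi_eq psi_nonneg)

variable {p : ℕ} {y t r lam : ℝ}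

/-- The back band in `τ`. -/
theorem tau_ge (hy : y ∈ Ioo (0 : ℝ) 1) (ht : t ∈ Ioo (0 : ℝ) 1) (hlam : 1 ≤ lam)
    (h : mass p semi 1 - mass p semi t ≤ lam ^ p * (mass p semi 1 - mass p semi y)) {z0 α : ℝ}
    (hz0 : 0 < z0) (hz : z0 ≤ y ^ 2) (hα : lam ^ p - 1 ≤ α * (((p : ℝ) + 2) * z0)) :
    -α * (1 - y ^ 2) ≤ t / y - 1 := by
  have h1 := band_back p hy ht hlam h
  have hs : 0 ≤ 1 - y ^ 2 := by nlinarith [hy.1, hy.2]
  have hA : (0 : ℝ) < (p : ℝ) + 2 := by positivity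
  have he : 0 ≤ lam ^ p - 1 := sub_nonneg.2 (one_le_pow₀ hlam)
  have hα0 : 0 ≤ α := nonneg_of_mul_nonneg_left (he.trans hα) (mul_pos hA hz0)
  have h2 : (lam ^ p - 1) * (1 - y ^ 2) / (((p : ℝ) + 2) * y) ≤ α * (1 - y ^ 2) * y := by
    rw [div_le_iff₀ (mul_pos hA hy.1)]
    have := mul_le_mul_of_nonneg_left (mul_le_mul_of_nonneg_left hz hA.le) hα0
    nlinarith [mul_le_mul_of_nonneg_right (hα.trans this) hs]
  rw [le_sub_iff_add_le, le_div_iff₀ hy.1]
  linarith [h1.trans h2]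

/-- `∫₀ᵇ S (y1 (1 + u))ᵖ`. -/
def fwdG (p : ℕ) (y1 b : ℝ) : ℝ := ∫ u in (0 : ℝ)..b, semi (y1 * (1 + u)) ^ p

theorem fwd_cont (p : ℕ) (y1 : ℝ) : Continuous fun u => semi (y1 * (1 + u)) ^ p := by
  have := semi_continuous
  fun_prop

theorem semi_anti {a b : ℝ} (ha : 0 ≤ a) (hab : a ≤ b) : semi b ≤ semi a :=
  Real.sqrt_le_sqrt (by nlinarith)

/-- The Riemann sum at the right ends bounds the integral of an antitone function from below. -/
theorem riemann_le {g : ℝ → ℝ} (hg : Continuous g) {h : ℝ} (hh : 0 ≤ h) :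
    ∀ (l : List ℝ) (a : ℝ),
      (∀ i : Fin l.length, ∀ u ∈ Icc (a + i * h) (a + (i + 1) * h), l[i] ≤ g u) →
        h * l.sum ≤ ∫ u in a..(a + l.length * h), g u
  | [], a, _ => by simp
  | c :: cs, a, hl => by
    have h0 : h * c ≤ ∫ u in a..(a + h), g u := by
      have := intervalIntegral.integral_mono_on (le_add_of_nonneg_right hh)
        (intervalIntegrable_const (c := c) (μ := volume)) (hg.intervalIntegrable a (a + h))
        fun u hu => by simpa using hl ⟨0, by simp⟩ u (by simpa using hu)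
      simpa using this
    have h1 := riemann_le hg hh cs (a + h) fun i u hu => by
      have := hl ⟨i + 1, by simp⟩ u (by
        push_cast
        constructor <;> nlinarith [hu.1, hu.2])
      simpa using this
    rw [List.sum_cons, List.length_cons, mul_add, Nat.cast_succ,
      show a + ((cs.length : ℝ) + 1) * h = a + h + cs.length * h by ring,
      ← intervalIntegral.integral_add_adjacent_intervals (hg.intervalIntegrable a (a + h))
        (hg.intervalIntegrable (a + h) (a + h + cs.length * h))]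
    exact add_le_add h0 h1

/-- The Riemann sum at the left ends bounds the integral of an antitone function from above. -/
theorem le_riemann {g : ℝ → ℝ} (hg : Continuous g) {h : ℝ} (hh : 0 ≤ h) :
    ∀ (l : List ℝ) (a : ℝ),
      (∀ i : Fin l.length, ∀ u ∈ Icc (a + i * h) (a + (i + 1) * h), g u ≤ l[i]) →
        (∫ u in a..(a + l.length * h), g u) ≤ h * l.sum
  | [], a, _ => by simp
  | c :: cs, a, hl => by
    have h0 : (∫ u in a..(a + h), g u) ≤ h * c := by
      have := intervalIntegral.integral_mono_on (le_add_of_nonneg_right hh)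
        (hg.intervalIntegrable a (a + h)) (intervalIntegrable_const (c := c) (μ := volume))
        fun u hu => by simpa using hl ⟨0, by simp⟩ u (by simpa using hu)
      simpa using this
    have h1 := le_riemann hg hh cs (a + h) fun i u hu => by
      have := hl ⟨i + 1, by simp⟩ u (by
        push_cast
        constructor <;> nlinarith [hu.1, hu.2])
      simpa using this
    rw [List.sum_cons, List.length_cons, mul_add, Nat.cast_succ,
      show a + ((cs.length : ℝ) + 1) * h = a + h + cs.length * h by ring,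
      ← intervalIntegral.integral_add_adjacent_intervals (hg.intervalIntegrable a (a + h))
        (hg.intervalIntegrable (a + h) (a + h + cs.length * h))]
    exact add_le_add h0 h1

/-- `fwdG` is concave, as its derivative decreases. -/
theorem fwdG_concave {y1 b0 b1 w : ℝ} (hy1 : 0 ≤ y1) (hb0 : 0 ≤ b0) (hb : b0 ≤ b1) (hw : w ∈ Icc (0 : ℝ) 1) :
    (1 - w) * fwdG p y1 b0 + w * fwdG p y1 b1 ≤ fwdG p y1 ((1 - w) * b0 + w * b1) := by
  set m := (1 - w) * b0 + w * b1 with hm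
  have h0m : b0 ≤ m := by nlinarith [hw.1]
  have hm1 : m ≤ b1 := by nlinarith [hw.2]
  have hc := fwd_cont p y1
  have hanti : ∀ u v : ℝ, 0 ≤ u → u ≤ v → semi (y1 * (1 + v)) ^ p ≤ semi (y1 * (1 + u)) ^ p :=
    fun u v hu huv => pow_le_pow_left₀ (Real.sqrt_nonneg _)
      (semi_anti (mul_nonneg hy1 (by linarith)) (mul_le_mul_of_nonneg_left (by linarith) hy1)) p
  have hA : (m - b0) * semi (y1 * (1 + m)) ^ p ≤ fwdG p y1 m - fwdG p y1 b0 := by
    rw [fwdG, fwdG, intervalIntegral.integral_interval_sub_left (hc.intervalIntegrable _ _)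
      (hc.intervalIntegrable _ _)]
    refine le_trans (le_of_eq (by rw [intervalIntegral.integral_const, smul_eq_mul]))
      (intervalIntegral.integral_mono_on h0m intervalIntegrable_const (hc.intervalIntegrable _ _)
        fun u hu => hanti u m (hb0.trans hu.1) hu.2)
  have hB : fwdG p y1 b1 - fwdG p y1 m ≤ (b1 - m) * semi (y1 * (1 + m)) ^ p := by
    rw [fwdG, fwdG, intervalIntegral.integral_interval_sub_left (hc.intervalIntegrable _ _)
      (hc.intervalIntegrable _ _)]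
    refine le_trans (intervalIntegral.integral_mono_on hm1 (hc.intervalIntegrable _ _)
      intervalIntegrable_const fun u hu => hanti m u (hb0.trans h0m) hu.1)
      (le_of_eq (by rw [intervalIntegral.integral_const, smul_eq_mul]))
  have e1 : (1 - w) * (m - b0) = w * (b1 - m) := by rw [hm]; ring
  nlinarith [mul_le_mul_of_nonneg_left hA (sub_nonneg.2 hw.2), mul_le_mul_of_nonneg_left hB hw.1]

/-- The forward band in `τ`. -/
theorem tau_le (hy : y ∈ Ioo (0 : ℝ) 1) (ht : t ∈ Ioo (0 : ℝ) 1) (hlam : 1 ≤ lam)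
    (h : mass p semi t ≤ lam ^ p * mass p semi y) {y0 y1 b e Φ : ℝ} (hy0 : 0 ≤ y0) (hy0y : y0 ≤ y)
    (hyy1 : y ≤ y1) (hb : 0 ≤ b) (he : lam ^ p - 1 ≤ e)
    (hΦ : ∫ u in (0 : ℝ)..1, semi (y0 * u) ^ p ≤ Φ) (hG : e * Φ ≤ fwdG p y1 b) :
    t / y - 1 ≤ b := by
  by_contra hlt
  push Not at hlt
  rw [lt_sub_iff_add_lt, lt_div_iff₀ hy.1] at hlt
  have hs := semi_continuous
  have hi : ∀ a b : ℝ, IntervalIntegrable (fun v => semi v ^ p) volume a b := fun a b =>
    (hs.pow p).intervalIntegrable a b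
  have hm : mass p semi y = y * ∫ u in (0 : ℝ)..1, semi (y * u) ^ p := by
    rw [intervalIntegral.mul_integral_comp_mul_left (f := fun v => semi v ^ p)]
    simp [mass]
  have hΦy : ∫ u in (0 : ℝ)..1, semi (y * u) ^ p ≤ Φ := by
    refine le_trans (intervalIntegral.integral_mono_on zero_le_one
      (Continuous.intervalIntegrable (by fun_prop) _ _) (Continuous.intervalIntegrable (by fun_prop) _ _)
      fun u hu => ?_) hΦ
    exact pow_le_pow_left₀ (Real.sqrt_nonneg _)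
      (semi_anti (mul_nonneg hy0 hu.1) (mul_le_mul_of_nonneg_right hy0y hu.1)) p
  set T := y * (1 + b) with hT
  have hTt : T < t := by rw [hT]; linarith
  have hyT : y ≤ T := by rw [hT]; nlinarith [hy.1]
  have hstrict : mass p semi T < mass p semi t := by
    rw [← sub_pos, mass, mass, intervalIntegral.integral_interval_sub_left (hi 0 t) (hi 0 T)]
    refine intervalIntegral.intervalIntegral_pos_of_pos_on (hi T t) (fun u hu => ?_) hTt
    exact pow_pos (semi_pos ⟨by linarith [hu.1, hy.1], hu.2.trans ht.2⟩) p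
  have hmid : y * fwdG p y1 b ≤ mass p semi T - mass p semi y := by
    have e1 : mass p semi T - mass p semi y = y * ∫ u in (0 : ℝ)..b, semi (y * (1 + u)) ^ p := by
      rw [mass, mass, intervalIntegral.integral_interval_sub_left (hi 0 T) (hi 0 y)]
      have := intervalIntegral.mul_integral_comp_mul_add (f := fun v => semi v ^ p) (a := 0) (b := b) y y
      rw [show y * 0 + y = y by ring, show y * b + y = T by rw [hT]; ring] at this
      rw [← this]
      congr 1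
      refine intervalIntegral.integral_congr fun u _ => ?_
      ring_nf
    rw [e1, fwdG]
    refine mul_le_mul_of_nonneg_left (intervalIntegral.integral_mono_on hb
      ((fwd_cont p y1).intervalIntegrable _ _) ((fwd_cont p y).intervalIntegrable _ _)
      fun u hu => ?_) hy.1.le
    exact pow_le_pow_left₀ (Real.sqrt_nonneg _)
      (semi_anti (mul_nonneg hy.1.le (by linarith [hu.1])) (mul_le_mul_of_nonneg_right hyy1
        (by linarith [hu.1]))) p
  have he0 : 0 ≤ e := (sub_nonneg.2 (one_le_pow₀ hlam)).trans he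
  have h3 : (lam ^ p - 1) * mass p semi y ≤ y * (e * Φ) := by
    have h4 : 0 ≤ mass p semi y :=
      intervalIntegral.integral_nonneg hy.1.le fun u _ => pow_nonneg (Real.sqrt_nonneg _) _
    refine le_trans (mul_le_mul_of_nonneg_right he h4) ?_
    rw [hm]
    nlinarith [mul_le_mul_of_nonneg_left hΦy (mul_nonneg he0 hy.1.le)]
  nlinarith [mul_le_mul_of_nonneg_left hG hy.1.le]

/-- `f ≥ semi` in the variables `(δ, τ)`. -/
theorem f_ge_semi (hy : y ∈ Ioo (0 : ℝ) 1) (ht : t ∈ Ioo (0 : ℝ) 1)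
    (h : semi t ≤ lam * semi y * r) {L2 : ℝ} (hL : lam ^ 2 ≤ L2) :
    1 - y ^ 2 * (1 + (t / y - 1)) ^ 2 ≤ L2 * (1 - y ^ 2) * r ^ 2 := by
  have hy2 : semi y ^ 2 = 1 - y ^ 2 := semi_sq ⟨by linarith [hy.1], hy.2.le⟩
  have ht2 : semi t ^ 2 = 1 - t ^ 2 := semi_sq ⟨by linarith [ht.1], ht.2.le⟩
  have h2 := pow_le_pow_left₀ (Real.sqrt_nonneg _) h 2
  rw [mul_pow, mul_pow] at h2
  have e : y ^ 2 * (1 + (t / y - 1)) ^ 2 = t ^ 2 := by
    have := hy.1.ne'
    field_simp; ring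
  rw [e]
  calc 1 - t ^ 2 = semi t ^ 2 := ht2.symm
    _ ≤ lam ^ 2 * semi y ^ 2 * r ^ 2 := h2
    _ ≤ L2 * semi y ^ 2 * r ^ 2 := by gcongr
    _ = _ := by rw [hy2]

/-- A lower bound on `r` from `f ≥ semi`, checked at both ends of the piece. -/
theorem r_ge {z z0 z1 L2 ρ hb τ : ℝ} (hz : z ∈ Icc z0 z1) (hz1 : z < 1) (hz0 : 0 ≤ z)
    (hr : 0 ≤ r) (hL : 0 < L2) (hτ : τ ≤ hb) (hτ1 : 0 ≤ 1 + τ)
    (h : 1 - z * (1 + τ) ^ 2 ≤ L2 * (1 - z) * r ^ 2)
    (e0 : ρ ^ 2 * L2 * (1 - z0) ≤ 1 - z0 * (1 + hb) ^ 2)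
    (e1 : ρ ^ 2 * L2 * (1 - z1) ≤ 1 - z1 * (1 + hb) ^ 2) : ρ ≤ r := by
  have h1 : ρ ^ 2 * L2 * (1 - z) ≤ 1 - z * (1 + hb) ^ 2 := by
    rcases le_total (ρ ^ 2 * L2) ((1 + hb) ^ 2) with hc | hc
    · nlinarith [mul_le_mul_of_nonneg_left hz.2 (sub_nonneg.2 hc)]
    · nlinarith [mul_le_mul_of_nonneg_left hz.1 (sub_nonneg.2 hc)]
  have h2 : (1 + τ) ^ 2 ≤ (1 + hb) ^ 2 := pow_le_pow_left₀ hτ1 (by linarith) 2
  have h3 : ρ ^ 2 * (L2 * (1 - z)) ≤ r ^ 2 * (L2 * (1 - z)) := by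
    nlinarith [mul_le_mul_of_nonneg_left h2 hz0]
  have h4 := le_of_mul_le_mul_right h3 (mul_pos hL (sub_pos.2 hz1))
  calc ρ ≤ |ρ| := le_abs_self ρ
    _ ≤ |r| := sq_le_sq.1 h4
    _ = r := abs_of_nonneg hr

/-- A chord below `√((1 - z (1 + τ)²) / (1 - z))`, checked at its two ends. -/
theorem chord_le {z z0 z1 c0 sl u0 u1 τ r L : ℝ} (hz : z ∈ Icc z0 z1) (hz1 : z < 1) (hz0 : 0 ≤ z)
    (hτ : u0 ≤ τ) (hr : 0 ≤ r) (hL : 0 ≤ L)
    (h : 1 - z * (1 + τ) ^ 2 ≤ L ^ 2 * (1 - z) * r ^ 2)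
    (hs : τ ≤ u1 ∨ (c0 + sl * u1 = 0 ∧ sl ≤ 0)) (p0 : 0 ≤ c0 + sl * u0) (p1 : 0 ≤ c0 + sl * u1)
    (e00 : (c0 + sl * u0) ^ 2 * (1 - z0) ≤ 1 - z0 * (1 + u0) ^ 2)
    (e01 : (c0 + sl * u0) ^ 2 * (1 - z1) ≤ 1 - z1 * (1 + u0) ^ 2)
    (e10 : (c0 + sl * u1) ^ 2 * (1 - z0) ≤ 1 - z0 * (1 + u1) ^ 2)
    (e11 : (c0 + sl * u1) ^ 2 * (1 - z1) ≤ 1 - z1 * (1 + u1) ^ 2) :
    c0 + sl * τ ≤ L * r := by
  have hLr : 0 ≤ L * r := mul_nonneg hL hr
  rcases le_total (c0 + sl * τ) 0 with hn | hp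
  · exact hn.trans hLr
  rcases le_or_gt τ u1 with hu | hu
  swap
  · rcases hs with hs | ⟨hs, hs'⟩
    · linarith
    · nlinarith
  have lin : ∀ {A B : ℝ}, 0 ≤ 1 - z0 * A - B * (1 - z0) → 0 ≤ 1 - z1 * A - B * (1 - z1) →
      0 ≤ 1 - z * A - B * (1 - z) := by
    intro A B ha hb
    rcases le_total B A with hc | hc
    · nlinarith [mul_le_mul_of_nonneg_left hz.2 (sub_nonneg.2 hc)]
    · nlinarith [mul_le_mul_of_nonneg_left hz.1 (sub_nonneg.2 hc)]
  have g0 := lin (A := (1 + u0) ^ 2) (B := (c0 + sl * u0) ^ 2) (by linarith) (by linarith)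
  have g1 := lin (A := (1 + u1) ^ 2) (B := (c0 + sl * u1) ^ 2) (by linarith) (by linarith)
  have hA : 0 ≤ z + (1 - z) * sl ^ 2 := by nlinarith [sq_nonneg sl]
  have hkey : 0 ≤ 1 - z * (1 + τ) ^ 2 - (c0 + sl * τ) ^ 2 * (1 - z) := by
    rcases eq_or_lt_of_le (hτ.trans hu) with he | hlt
    · have e : τ = u0 := le_antisymm (by linarith) hτ
      rw [e]; linarith
    refine nonneg_of_mul_nonneg_right ?_ (sub_pos.2 hlt)
    linear_combination mul_nonneg (sub_nonneg.2 hu) g0 + mul_nonneg (sub_nonneg.2 hτ) g1 +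
      mul_nonneg (mul_nonneg hA (mul_nonneg (sub_nonneg.2 hτ) (sub_nonneg.2 hu))) (sub_pos.2 hlt).le
  have h2 : (c0 + sl * τ) ^ 2 * (1 - z) ≤ (L * r) ^ 2 * (1 - z) := by nlinarith
  exact (pow_le_pow_iff_left₀ hp hLr two_ne_zero).1 (le_of_mul_le_mul_right h2 (sub_pos.2 hz1))

end Vale.Agent.P237.All.Transport.Finite
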