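import Vale.Agent.P237.All.CertPotentialFun

/-!
P237, finitely many dimensions: on a region in `(δ, τ)`, `δ = r - 1`, `τ = t / y - 1`, the density with
the potential is at most a quadratic in `(x, τ)`, `x = δ - l`, whose coefficients are quadratic forms in
parameters that vary affinely with `k` (`notes/P237h2/finite/format.md`).
-/

noncomputable section

namespace Vale.Agent.P237.All.Transport.Finite

/-- The parameters that are affine in `k`, with the unit `o`: weight, `c₂`, multiplier, the potential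
`A = s f`, `W = s h` with derivatives in `z`, band ends, bound on the `δ τ²` coefficient, `λ²`, `λ`. -/
structure Par where
  o : ℝ
  g : ℝ
  c2 : ℝ
  ell : ℝ
  f : ℝ
  fd : ℝ
  h : ℝ
  hd : ℝ
  al : ℝ
  bb : ℝ
  ztu : ℝ
  L2 : ℝ
  lam : ℝ
  eq : ℝ
  hp : ℝ
  ep : ℝ

/-- The sum of two parameter sets. -/
def Par.add (P Q : Par) : Par :=
  ⟨P.o + Q.o, P.g + Q.g, P.c2 + Q.c2, P.ell + Q.ell, P.f + Q.f, P.fd + Q.fd, P.h + Q.h, P.hd + Q.hd,
    P.al + Q.al, P.bb + Q.bb, P.ztu + Q.ztu, P.L2 + Q.L2, P.lam + Q.lam, P.eq + Q.eq,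
    P.hp + Q.hp, P.ep + Q.ep⟩

/-- The multiple of a parameter set. -/
def Par.smul (w : ℝ) (P : Par) : Par :=
  ⟨w * P.o, w * P.g, w * P.c2, w * P.ell, w * P.f, w * P.fd, w * P.h, w * P.hd,
    w * P.al, w * P.bb, w * P.ztu, w * P.L2, w * P.lam, w * P.eq,
    w * P.hp, w * P.ep⟩

/-- The constants of a region: corner `l`, width `H`, ends in `τ` (`aBand`: the band, else `ta`),
the quadratic below `R₁`, the line below it, the quadratic above `R₂`, the line below it, the chord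
`xA τ + xB`, the excess `K`, the choice of the bound on the potential. -/
structure Scal where
  l : ℝ
  aBand : Bool
  ta : ℝ
  bBand : Bool
  tb : ℝ
  q0 : ℝ
  q1 : ℝ
  q2 : ℝ
  v0 : ℝ
  v1 : ℝ
  u0 : ℝ
  u1 : ℝ
  u2 : ℝ
  w0 : ℝ
  w1 : ℝ
  xA : ℝ
  xB : ℝ
  K : ℝ
  pick : ℕ

variable (p be z : ℝ) (P : Par) (S : Scal)

/-- The lower end in `τ`. -/
def Scal.ea : ℝ := if S.aBand then -P.al * (1 - z) else P.o * S.ta

/-- The upper end in `τ`. -/
def Scal.eb : ℝ := if S.bBand then P.bb else P.o * S.tb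

/-- The bound on `e / s`, of degree two in the parameters. -/
def Scal.em : ℝ :=
  if S.pick = 0 then 0 else if S.pick = 1 then P.o * P.f + 2 * P.h * S.ea z P
  else if S.pick = 2 then P.o * P.f + 2 * P.h * S.eb P
  else P.o * P.f + 2 * P.h * S.ea z P + 2 * (S.eb P - S.ea z P) * P.hp + P.o * P.ep

/-- The factor `c = 2 (1 + β)`. -/
def cc : ℝ := 2 * (1 + be)

def k0 : ℝ := 2 * be * (be - 1) - 2 * be * (p + 2) - cc be * (be - 1)

def k1 : ℝ := 2 * be * (be - 1) - 2 * be * (p + 2) - cc be * (be - 1) * (p + 1)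

def k2 : ℝ := 2 * be ^ 2 + (p + 2) * be ^ 2 - cc be * be

def k3 : ℝ := (p + 4) * be ^ 2 - (p + 1) * cc be * be

def gterm : ℝ := P.g * ((p + 4) * z * P.o - P.c2)

def c00 : ℝ := gterm p z P + P.o ^ 2 * ((p + 2) * z + 1 - 2 * (1 - z))

def cd : ℝ :=
  P.o * P.ell + gterm p z P +
    P.o ^ 2 * (2 * be * (1 - z) + (p + 2) * z + 1 - (p + 1) * cc be * (1 - z)) -
    p * P.o * ((1 - z) * P.f)

def ct : ℝ :=
  2 * (p + 4) * P.o * z * P.g + k0 p be * P.o ^ 2 * z +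
    P.o * z * (2 * ((1 - z) * P.fd - P.f) - (p + 1) * P.f)

def cdt : ℝ :=
  2 * (p + 4) * P.o * z * P.g + k1 p be * P.o ^ 2 * z - 2 * p * P.o * ((1 - z) * P.h)

def ctt : ℝ :=
  (p + 4) * P.o * z * P.g + k2 p be * P.o ^ 2 * z + 2 * P.o * z * ((1 - z) * P.hd - P.h) -
    P.o * ((1 - z) * P.h) - (p + 1) * P.o * z * P.h

def zc : ℝ := (p + 4) * P.g + k3 p be * P.o

/-- The bracket of the density with the potential. -/
def bracket (δ τ R1 R2 : ℝ) : ℝ :=
  c00 p z P + δ * cd p be z P + τ * ct p be z P + δ * τ * cdt p be z P + τ ^ 2 * ctt p be z P +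
    δ * τ ^ 2 * z * zc p be P - cc be * ((1 - z) + (be - 1) * z * τ + be * z * τ ^ 2) * R1 +
    (1 - z) * (P.f + 2 * P.h * τ) * R2

def Scal.cm : ℝ := P.o * cc be * (1 - z) + cc be * (be - 1) * z * S.ea z P

def Scal.e00 : ℝ :=
  c00 p z P + S.l * cd p be z P - S.q0 * P.o * S.cm be z P +
    S.v0 * (cc be * (be - 1)) * z * S.ea z P * P.o + (1 - z) * S.em z P * (S.u0 - S.w0) +
    S.w0 * P.o * ((1 - z) * P.f) + S.K * S.em z P

def Scal.e01 : ℝ :=
  cd p be z P - S.q1 * P.o * S.cm be z P + S.v1 * (cc be * (be - 1)) * z * S.ea z P * P.o +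
    (1 - z) * S.em z P * (S.u1 - S.w1) + S.w1 * P.o * ((1 - z) * P.f) + S.xB * P.ztu * z * P.o

def Scal.e02 : ℝ :=
  ct p be z P + S.l * cdt p be z P - cc be * (be - 1) * z * S.v0 * P.o ^ 2 +
    2 * S.w0 * P.o * ((1 - z) * P.h)

def Scal.e11 : ℝ := -(S.q2 * P.o * S.cm be z P) + S.u2 * (1 - z) * S.em z P

def Scal.e12 : ℝ :=
  cdt p be z P - cc be * (be - 1) * z * S.v1 * P.o ^ 2 + 2 * S.w1 * P.o * ((1 - z) * P.h) +
    S.xA * P.ztu * z * P.o

def Scal.e22 : ℝ :=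
  ctt p be z P + S.l * zc p be P * z * P.o - cc be * be * S.v0 * P.o ^ 2 * z

/-- The quadratic above the bracket on the region. -/
theorem bracket_le {δ τ R1 R2 : ℝ} (ho : P.o = 1) (hz0 : 0 ≤ z) (hz1 : z ≤ 1) (hbe : 1 ≤ be)
    (hx : S.l ≤ δ) (ha : S.ea z P ≤ τ) (hcm : 0 ≤ S.cm be z P)
    (hq : S.q0 + S.q1 * (δ - S.l) + S.q2 * (δ - S.l) ^ 2 ≤ R1)
    (hv : S.v0 + S.v1 * (δ - S.l) ≤ R1)
    (hu : (1 - z) * R2 ≤ (1 - z) * (S.u0 + S.u1 * (δ - S.l) + S.u2 * (δ - S.l) ^ 2) + S.K)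
    (hw : S.w0 + S.w1 * (δ - S.l) ≤ R2)
    (hem0 : 0 ≤ S.em z P) (hem : P.f + 2 * P.h * τ ≤ S.em z P)
    (hzt : (zc p be P - cc be * be * S.v1) * τ ^ 2 ≤ P.ztu * (S.xA * τ + S.xB)) :
    bracket p be z P δ τ R1 R2 ≤ S.e00 p be z P + S.e01 p be z P * (δ - S.l) +
      S.e02 p be z P * τ + S.e11 be z P * (δ - S.l) ^ 2 + S.e12 p be z P * ((δ - S.l) * τ) +
      S.e22 p be z P * τ ^ 2 := by
  have hs : 0 ≤ 1 - z := by linarith
  have hc : 0 ≤ cc be := by unfold cc; linarith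
  have h1 := mul_le_mul_of_nonneg_left hq hcm
  have h2 := mul_le_mul_of_nonneg_left hv
    (show 0 ≤ cc be * (be - 1) * z * (τ - S.ea z P) from
      mul_nonneg (mul_nonneg (mul_nonneg hc (by linarith)) hz0) (sub_nonneg.2 ha))
  have h3 := mul_le_mul_of_nonneg_left hv
    (show 0 ≤ cc be * be * z * τ ^ 2 from
      mul_nonneg (mul_nonneg (mul_nonneg hc (by linarith)) hz0) (sq_nonneg τ))
  have h4 := mul_le_mul_of_nonneg_left hu hem0
  have h5 := mul_le_mul_of_nonneg_left hw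
    (show 0 ≤ (1 - z) * (S.em z P - (P.f + 2 * P.h * τ)) from mul_nonneg hs (sub_nonneg.2 hem))
  have h6 := mul_le_mul_of_nonneg_left hzt (mul_nonneg hz0 (sub_nonneg.2 hx))
  simp only [bracket, Scal.e00, Scal.e01, Scal.e02, Scal.e11, Scal.e12, Scal.e22, ho]
  simp only [Scal.cm, ho] at h1 ⊢
  linear_combination h1 + h2 + h3 + h4 + h5 + h6

/-- The density with the potential `A = (1 - z) f (z)`, `W = (1 - z) h (z)` is the bracket. -/
theorem density_bracket (n : ℕ) (ell g lam c2 b : ℝ) (F Fd H Hd : ℝ → ℝ) {y t r : ℝ}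
    (hy : y ∈ Set.Ioo (0 : ℝ) 1) (hr : 0 < r) :
    density n 0 g 1 b ell lam c2 y t r +
      potFY n (fun y => (1 - y ^ 2) * F (y ^ 2))
        (fun y => 2 * y * ((1 - y ^ 2) * Fd (y ^ 2) - F (y ^ 2)))
        (fun y => (1 - y ^ 2) * H (y ^ 2))
        (fun y => 2 * y * ((1 - y ^ 2) * Hd (y ^ 2) - H (y ^ 2))) y t +
      potFT n (fun y => (1 - y ^ 2) * F (y ^ 2)) (fun y => (1 - y ^ 2) * H (y ^ 2)) y t / r ^ n =
      semi y ^ (n + 1) * bracket n b (y ^ 2)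
        { o := 1, g := g, c2 := c2, ell := ell, f := F (y ^ 2), fd := Fd (y ^ 2), h := H (y ^ 2),
          hd := Hd (y ^ 2), al := 0, bb := 0, ztu := 0, L2 := 0, lam := 0, eq := 0, hp := 0, ep := 0 }
        (r - 1) (t / y - 1) (r ^ (n + 1) - 1 - ((n : ℝ) + 1) * (r - 1))
        ((r ^ n)⁻¹ - 1 + (n : ℝ) * (r - 1)) := by
  rw [density_potF _ _ _ _ n 0 g 1 b ell lam c2 hy hr]
  congr 1
  have hy0 := hy.1.ne'
  have hrp := (pow_pos hr n).ne'
  have hS : (1 - y ^ 2 : ℝ) ≠ 0 := by nlinarith [hy.1, hy.2]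
  simp only [bracket, c00, cd, ct, cdt, ctt, zc, gterm, cc, k0, k1, k2, k3, pow_succ r n]
  field_simp
  ring

end Vale.Agent.P237.All.Transport.Finite
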