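import Mathlib.Tactic

/-!
P237, finitely many dimensions: polynomials packed in one integer (the value at `2 ^ B`) with a bound
on the sum of the absolute values of the coefficients, so that the kernel tests nonnegativity of all
coefficients with one bit mask.
-/

noncomputable section

namespace Vale.Agent.P237.All.Finite

/-- A packed polynomial: its value at `2 ^ B` as a difference of two naturals and a bound on the
absolute sum of its coefficients. -/
structure PK where
  p : ℕ
  q : ℕ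
  n : ℕ

/-- The packed value. -/
def PK.v (a : PK) : ℤ := (a.p : ℤ) - a.q

/-- Evaluation of a coefficient list. -/
def ev {R : Type*} [CommRing R] (x : R) : List ℤ → R
  | [] => 0
  | c :: cs => (c : R) + x * ev x cs

/-- The absolute sum of a coefficient list. -/
def l1 : List ℤ → ℕ
  | [] => 0
  | c :: cs => c.natAbs + l1 cs

/-- Sum of coefficient lists. -/
def ladd : List ℤ → List ℤ → List ℤ
  | [], b => b
  | a :: as, [] => a :: as
  | a :: as, b :: bs => (a + b) :: ladd as bs

/-- Multiple of a coefficient list. -/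
def lsmul (k : ℤ) : List ℤ → List ℤ
  | [] => []
  | c :: cs => k * c :: lsmul k cs

/-- Product of coefficient lists. -/
def lmul : List ℤ → List ℤ → List ℤ
  | [], _ => []
  | a :: as, b => ladd (lsmul a b) (0 :: lmul as b)

variable {R : Type*} [CommRing R]

theorem ev_ladd (x : R) : ∀ a b : List ℤ, ev x (ladd a b) = ev x a + ev x b
  | [], b => by simp [ladd, ev]
  | a :: as, [] => by simp [ladd, ev]
  | a :: as, b :: bs => by simp only [ladd, ev, ev_ladd x as bs, Int.cast_add]; ring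

theorem ev_lsmul (x : R) (k : ℤ) : ∀ a : List ℤ, ev x (lsmul k a) = k * ev x a
  | [] => by simp [lsmul, ev]
  | c :: cs => by simp only [lsmul, ev, ev_lsmul x k cs, Int.cast_mul]; ring

theorem ev_lmul (x : R) : ∀ a b : List ℤ, ev x (lmul a b) = ev x a * ev x b
  | [], b => by simp [lmul, ev]
  | a :: as, b => by
    simp only [lmul, ev_ladd, ev_lsmul, ev, ev_lmul x as b, Int.cast_zero, zero_add]; ring

theorem l1_ladd : ∀ a b : List ℤ, l1 (ladd a b) ≤ l1 a + l1 b
  | [], b => by simp [ladd, l1]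
  | a :: as, [] => by simp [ladd, l1]
  | a :: as, b :: bs => by
    simp only [ladd, l1]
    have := l1_ladd as bs
    have := Int.natAbs_add_le a b
    omega

theorem l1_lsmul (k : ℤ) : ∀ a : List ℤ, l1 (lsmul k a) = k.natAbs * l1 a
  | [] => by simp [lsmul, l1]
  | c :: cs => by simp only [lsmul, l1, l1_lsmul k cs, Int.natAbs_mul, mul_add]

theorem l1_lmul : ∀ a b : List ℤ, l1 (lmul a b) ≤ l1 a * l1 b
  | [], b => by simp [lmul, l1]
  | a :: as, b => by
    simp only [lmul, l1]
    refine (l1_ladd _ _).trans ?_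
    have := l1_lmul as b
    simp only [l1_lsmul, l1, Int.natAbs_zero, zero_add, add_mul]
    omega

/-- Evaluation of a two variable coefficient list, inner lists in the second variable. -/
def ev2 {R : Type*} [CommRing R] (x y : R) : List (List ℤ) → R
  | [] => 0
  | c :: cs => ev y c + x * ev2 x y cs

/-- The absolute sum of a two variable list. -/
def l12 : List (List ℤ) → ℕ
  | [] => 0
  | c :: cs => l1 c + l12 cs

/-- Sum of two variable lists. -/
def ladd2 : List (List ℤ) → List (List ℤ) → List (List ℤ)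
  | [], b => b
  | a :: as, [] => a :: as
  | a :: as, b :: bs => ladd a b :: ladd2 as bs

/-- Integer multiple of a two variable list. -/
def lsmul2 (k : ℤ) : List (List ℤ) → List (List ℤ)
  | [] => []
  | c :: cs => lsmul k c :: lsmul2 k cs

/-- Multiple by a list in the second variable. -/
def linner (a : List ℤ) : List (List ℤ) → List (List ℤ)
  | [] => []
  | b :: bs => lmul a b :: linner a bs

/-- Product of two variable lists. -/
def lmul2 : List (List ℤ) → List (List ℤ) → List (List ℤ)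
  | [], _ => []
  | a :: as, b => ladd2 (linner a b) ([] :: lmul2 as b)

theorem ev2_ladd2 (x y : R) : ∀ a b, ev2 x y (ladd2 a b) = ev2 x y a + ev2 x y b
  | [], b => by simp [ladd2, ev2]
  | a :: as, [] => by simp [ladd2, ev2]
  | a :: as, b :: bs => by simp only [ladd2, ev2, ev_ladd, ev2_ladd2 x y as bs]; ring

theorem ev2_lsmul2 (x y : R) (k : ℤ) : ∀ a, ev2 x y (lsmul2 k a) = k * ev2 x y a
  | [] => by simp [lsmul2, ev2]
  | c :: cs => by simp only [lsmul2, ev2, ev_lsmul, ev2_lsmul2 x y k cs]; ring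

theorem ev2_linner (x y : R) (a : List ℤ) : ∀ b, ev2 x y (linner a b) = ev y a * ev2 x y b
  | [] => by simp [linner, ev2]
  | c :: cs => by simp only [linner, ev2, ev_lmul, ev2_linner x y a cs]; ring

theorem ev2_lmul2 (x y : R) : ∀ a b, ev2 x y (lmul2 a b) = ev2 x y a * ev2 x y b
  | [], b => by simp [lmul2, ev2]
  | a :: as, b => by
    simp only [lmul2, ev2_ladd2, ev2_linner, ev2, ev, ev2_lmul2 x y as b, zero_add]; ring

theorem l12_ladd2 : ∀ a b, l12 (ladd2 a b) ≤ l12 a + l12 b
  | [], b => by simp [ladd2, l12]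
  | a :: as, [] => by simp [ladd2, l12]
  | a :: as, b :: bs => by
    simp only [ladd2, l12]
    have := l1_ladd a b
    have := l12_ladd2 as bs
    omega

theorem l12_lsmul2 (k : ℤ) : ∀ a, l12 (lsmul2 k a) = k.natAbs * l12 a
  | [] => by simp [lsmul2, l12]
  | c :: cs => by simp only [lsmul2, l12, l1_lsmul, l12_lsmul2 k cs, mul_add]

theorem l12_linner (a : List ℤ) : ∀ b, l12 (linner a b) ≤ l1 a * l12 b
  | [] => by simp [linner, l12]
  | c :: cs => by
    simp only [linner, l12, mul_add]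
    exact add_le_add (l1_lmul a c) (l12_linner a cs)

theorem l12_lmul2 : ∀ a b, l12 (lmul2 a b) ≤ l12 a * l12 b
  | [], b => by simp [lmul2, l12]
  | a :: as, b => by
    simp only [lmul2, l12, add_mul]
    refine (l12_ladd2 _ _).trans (add_le_add (l12_linner a b) ?_)
    simpa [l12, l1] using l12_lmul2 as b

/-- All inner lists have at most `n` entries. -/
def Short (n : ℕ) (c : List (List ℤ)) : Prop := ∀ l ∈ c, l.length ≤ n

theorem length_ladd : ∀ a b : List ℤ, (ladd a b).length = max a.length b.length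
  | [], b => by simp [ladd]
  | a :: as, [] => by simp [ladd]
  | a :: as, b :: bs => by simp [ladd, length_ladd as bs]

theorem length_lsmul (k : ℤ) : ∀ a : List ℤ, (lsmul k a).length = a.length
  | [] => rfl
  | c :: cs => by simp [lsmul, length_lsmul k cs]

theorem length_lmul : ∀ (a b : List ℤ) {i j : ℕ}, a.length ≤ i + 1 → b.length ≤ j + 1 →
    (lmul a b).length ≤ i + j + 1
  | [], _, _, _, _, _ => by simp [lmul]
  | a :: as, b, i, j, ha, hb => by
    simp only [lmul, length_ladd, length_lsmul, List.length_cons]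
    rcases i with _ | i
    · have : as = [] := by simpa using ha
      subst this
      simp [lmul]
      omega
    · have := length_lmul as b (i := i) (by simpa using ha) hb
      omega

theorem Short.ladd2 {n : ℕ} : ∀ {a b}, Short n a → Short n b → Short n (Finite.ladd2 a b)
  | [], b, _, hb => by simpa [Finite.ladd2] using hb
  | a :: as, [], ha, _ => by simpa [Finite.ladd2] using ha
  | a :: as, b :: bs, ha, hb => by
    intro l hl
    simp only [Finite.ladd2, List.mem_cons] at hl
    rcases hl with rfl | hl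
    · rw [length_ladd]; exact max_le (ha a (by simp)) (hb b (by simp))
    · exact Short.ladd2 (fun l h => ha l (by simp [h])) (fun l h => hb l (by simp [h])) l hl

theorem Short.lsmul2 {n : ℕ} (k : ℤ) : ∀ {a}, Short n a → Short n (Finite.lsmul2 k a)
  | [], h => by simpa [Finite.lsmul2] using h
  | c :: cs, h => by
    intro l hl
    simp only [Finite.lsmul2, List.mem_cons] at hl
    rcases hl with rfl | hl
    · rw [length_lsmul]; exact h c (by simp)
    · exact Short.lsmul2 k (fun l hl => h l (by simp [hl])) l hl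

theorem Short.linner {i j : ℕ} {a : List ℤ} (ha : a.length ≤ i + 1) :
    ∀ {b}, Short (j + 1) b → Short (i + j + 1) (Finite.linner a b)
  | [], _ => by simp [Finite.linner, Short]
  | c :: cs, h => by
    intro l hl
    simp only [Finite.linner, List.mem_cons] at hl
    rcases hl with rfl | hl
    · exact length_lmul a c ha (h c (by simp))
    · exact Short.linner ha (fun l hl => h l (by simp [hl])) l hl

theorem Short.lmul2 {i j : ℕ} : ∀ {a b}, Short (i + 1) a → Short (j + 1) b →
    Short (i + j + 1) (Finite.lmul2 a b)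
  | [], _, _, _ => by simp [Finite.lmul2, Short]
  | a :: as, b, ha, hb => by
    refine Short.ladd2 (Short.linner (ha a (by simp)) hb) fun l hl => ?_
    simp only [List.mem_cons] at hl
    rcases hl with rfl | hl
    · simp
    · exact Short.lmul2 (fun l h => ha l (by simp [h])) hb l hl

/-- `q` represents `f (X, W)`, of degree at most `dy` in `W`; `X` is packed `S` digits apart. -/
def Rep (B S dy : ℕ) (q : PK) (f : ℝ → ℝ → ℝ) : Prop :=
  ∃ c : List (List ℤ), Short (dy + 1) c ∧ ev2 ((2 : ℤ) ^ (B * S)) ((2 : ℤ) ^ B) c = q.v ∧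
    l12 c ≤ q.n ∧ ∀ X W : ℝ, 0 ≤ X → 0 ≤ W → ev2 X W c = f X W

/-- Sum. -/
def PK.add (a b : PK) : PK :=
  PK.rec (fun ap aq an => PK.rec (fun bp bq bn => ⟨Nat.add ap bp, Nat.add aq bq, Nat.add an bn⟩) b) a

/-- Difference. -/
def PK.sub (a b : PK) : PK :=
  PK.rec (fun ap aq an => PK.rec (fun bp bq bn => ⟨Nat.add ap bq, Nat.add aq bp, Nat.add an bn⟩) b) a

/-- Product. -/
def PK.mul (a b : PK) : PK :=
  PK.rec (fun ap aq an => PK.rec (fun bp bq bn =>
    ⟨Nat.add (Nat.mul ap bp) (Nat.mul aq bq), Nat.add (Nat.mul ap bq) (Nat.mul aq bp), Nat.mul an bn⟩) b) a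

/-- Integer multiple. -/
def PK.smul (k : ℤ) (a : PK) : PK :=
  PK.rec (fun ap aq an => Int.rec (fun j => ⟨Nat.mul j ap, Nat.mul j aq, Nat.mul j an⟩)
    (fun j => ⟨Nat.mul (Nat.add j 1) aq, Nat.mul (Nat.add j 1) ap, Nat.mul (Nat.add j 1) an⟩) k) a

/-- Evaluates a natural number before passing it on: the kernel then shares the value. -/
def forceN {α : Sort*} (x : ℕ) (k : ℕ → α) : α :=
  Nat.rec (k 0) (fun m _ => k (Nat.succ m)) x

theorem forceN_eq {α : Sort*} (x : ℕ) (k : ℕ → α) : forceN x k = k x := by cases x <;> rfl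

/-- Evaluates the fields before passing them on. -/
def PK.strict {α : Sort*} (a : PK) (k : PK → α) : α :=
  forceN a.p fun p => forceN a.q fun q => forceN a.n fun n => k ⟨p, q, n⟩

theorem PK.strict_eq {α : Sort*} (a : PK) (k : PK → α) : a.strict k = k a := by
  simp [PK.strict, forceN_eq]

/-- The same value with one part zero; this saves three of the four products in a multiplication. -/
def PK.norm (a : PK) : PK := PK.rec (fun p q n => ⟨Nat.sub p q, Nat.sub q p, n⟩) a

/-- A constant. -/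
def PK.const (k : ℤ) : PK := ⟨k.toNat, (-k).toNat, k.natAbs⟩

/-- A polynomial of degree one in `X`. -/
def PK.lin (B S : ℕ) (a b : ℤ) : PK :=
  (PK.const a).add ⟨b.toNat * 2 ^ (B * S), (-b).toNat * 2 ^ (B * S), b.natAbs⟩

/-- A polynomial of degree one in `W`. -/
def PK.linW (B : ℕ) (a b : ℤ) : PK :=
  (PK.const a).add ⟨b.toNat * 2 ^ B, (-b).toNat * 2 ^ B, b.natAbs⟩

theorem PK.add_v (a b : PK) : (a.add b).v = a.v + b.v := by simp [PK.add, PK.v]; ring

theorem PK.add_n (a b : PK) : (a.add b).n = a.n + b.n := rfl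

theorem PK.sub_v (a b : PK) : (a.sub b).v = a.v - b.v := by simp [PK.sub, PK.v]; ring

theorem PK.sub_n (a b : PK) : (a.sub b).n = a.n + b.n := rfl

theorem PK.mul_v (a b : PK) : (a.mul b).v = a.v * b.v := by simp [PK.mul, PK.v]; ring

theorem PK.mul_n (a b : PK) : (a.mul b).n = a.n * b.n := rfl

theorem PK.smul_v (k : ℤ) (a : PK) : (PK.smul k a).v = k * a.v := by
  rcases k with k | k
  · simp [PK.smul, PK.v]; ring
  · simp [PK.smul, PK.v, Int.negSucc_eq]; ring

theorem PK.smul_n (k : ℤ) (a : PK) : (PK.smul k a).n = k.natAbs * a.n := by rcases k with k | k <;> rfl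

theorem PK.const_v (k : ℤ) : (PK.const k).v = k := by simp only [PK.const, PK.v]; omega

theorem PK.lin_v (B S : ℕ) (a b : ℤ) : (PK.lin B S a b).v = a + b * 2 ^ (B * S) := by
  rw [PK.lin, PK.add_v, PK.const_v]
  simp only [PK.v]
  push_cast
  rw [← sub_mul]
  congr 2
  omega

theorem PK.linW_v (B : ℕ) (a b : ℤ) : (PK.linW B a b).v = a + b * 2 ^ B := by
  rw [PK.linW, PK.add_v, PK.const_v]
  simp only [PK.v]
  push_cast
  rw [← sub_mul]
  congr 2
  omega

variable {B S i j : ℕ} {a b : PK} {f g : ℝ → ℝ → ℝ}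

theorem Rep.const (k : ℤ) : Rep B S 0 (PK.const k) fun _ _ => (k : ℝ) :=
  ⟨[[k]], by simp [Short], by simp [ev2, ev, PK.const_v], by simp [l12, l1, PK.const],
    fun X W _ _ => by simp [ev2, ev]⟩

theorem Rep.lin (a b : ℤ) : Rep B S 0 (PK.lin B S a b) fun X _ => (a : ℝ) + b * X :=
  ⟨[[a], [b]], by simp [Short], by simp [ev2, ev, PK.lin_v, mul_comm], by simp [l12, l1, PK.lin, PK.add, PK.const],
    fun X W _ _ => by simp [ev2, ev, mul_comm]⟩

theorem Rep.linW (a b : ℤ) : Rep B S 1 (PK.linW B a b) fun _ W => (a : ℝ) + b * W :=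
  ⟨[[a, b]], by simp [Short], by simp [ev2, ev, PK.linW_v, mul_comm], by simp [l12, l1, PK.linW, PK.add, PK.const],
    fun X W _ _ => by simp [ev2, ev, mul_comm]⟩

theorem Rep.norm (ha : Rep B S i a f) : Rep B S i a.norm f := by
  obtain ⟨c, h0, h1, h2, h3⟩ := ha
  refine ⟨c, h0, h1.trans ?_, h2, h3⟩
  simp only [PK.norm, PK.v, Nat.sub_eq]
  omega

theorem Rep.mono (ha : Rep B S i a f) (h : i ≤ j) : Rep B S j a f := by
  obtain ⟨c, h0, h1, h2, h3⟩ := ha
  exact ⟨c, fun l hl => (h0 l hl).trans (by omega), h1, h2, h3⟩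

theorem Rep.add (ha : Rep B S i a f) (hb : Rep B S j b g) :
    Rep B S (max i j) (a.add b) fun X W => f X W + g X W := by
  obtain ⟨c, h0, h1, h2, h3⟩ := ha.mono (le_max_left i j)
  obtain ⟨d, k0, k1, k2, k3⟩ := hb.mono (le_max_right i j)
  exact ⟨ladd2 c d, h0.ladd2 k0, by rw [ev2_ladd2, h1, k1, PK.add_v],
    (l12_ladd2 c d).trans (add_le_add h2 k2), fun X W hX hW => by rw [ev2_ladd2, h3 X W hX hW, k3 X W hX hW]⟩

theorem Rep.smul (k : ℤ) (ha : Rep B S i a f) : Rep B S i (PK.smul k a) fun X W => (k : ℝ) * f X W := by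
  obtain ⟨c, h0, h1, h2, h3⟩ := ha
  exact ⟨lsmul2 k c, h0.lsmul2 k, by rw [ev2_lsmul2, h1, PK.smul_v]; simp,
    by rw [PK.smul_n]; exact (l12_lsmul2 k c).trans_le (Nat.mul_le_mul_left _ h2), fun X W hX hW => by rw [ev2_lsmul2, h3 X W hX hW]⟩

theorem Rep.sub (ha : Rep B S i a f) (hb : Rep B S j b g) :
    Rep B S (max i j) (a.sub b) fun X W => f X W - g X W := by
  obtain ⟨c, h0, h1, h2, h3⟩ := ha.mono (le_max_left i j)
  obtain ⟨d, k0, k1, k2, k3⟩ := hb.mono (le_max_right i j)
  refine ⟨ladd2 c (lsmul2 (-1) d), h0.ladd2 (k0.lsmul2 _), ?_, ?_, fun X W hX hW => ?_⟩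
  · rw [ev2_ladd2, ev2_lsmul2, h1, k1, PK.sub_v]; push_cast; ring
  · refine (l12_ladd2 c _).trans (add_le_add h2 ?_)
    rw [l12_lsmul2]; simpa using k2
  · rw [ev2_ladd2, ev2_lsmul2, h3 X W hX hW, k3 X W hX hW]; push_cast; ring

theorem Rep.mul (ha : Rep B S i a f) (hb : Rep B S j b g) :
    Rep B S (i + j) (a.mul b) fun X W => f X W * g X W := by
  obtain ⟨c, h0, h1, h2, h3⟩ := ha
  obtain ⟨d, k0, k1, k2, k3⟩ := hb
  exact ⟨lmul2 c d, h0.lmul2 k0, by rw [ev2_lmul2, h1, k1, PK.mul_v],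
    (l12_lmul2 c d).trans (Nat.mul_le_mul h2 k2), fun X W hX hW => by rw [ev2_lmul2, h3 X W hX hW, k3 X W hX hW]⟩

theorem Rep.congr (ha : Rep B S i a f) (h : ∀ X W, f X W = g X W) : Rep B S i a g := by
  obtain ⟨c, h0, h1, h2, h3⟩ := ha
  exact ⟨c, h0, h1, h2, fun X W hX hW => (h3 X W hX hW).trans (h X W)⟩

theorem Rep.congr' (ha : Rep B S i a f) (h : ∀ X W, 0 ≤ X → 0 ≤ W → f X W = g X W) :
    Rep B S i a g := by
  obtain ⟨c, h0, h1, h2, h3⟩ := ha
  exact ⟨c, h0, h1, h2, fun X W hX hW => (h3 X W hX hW).trans (h X W hX hW)⟩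

/-- Concatenates the inner lists, padded to length `n`. -/
def flat (n : ℕ) : List (List ℤ) → List ℤ
  | [] => []
  | c :: cs => c ++ (List.replicate (n - c.length) 0 ++ flat n cs)

theorem ev_append (x : R) : ∀ a b : List ℤ, ev x (a ++ b) = ev x a + x ^ a.length * ev x b
  | [], b => by simp [ev]
  | c :: cs, b => by simp only [List.cons_append, ev, ev_append x cs b, List.length_cons, pow_succ]; ring

theorem ev_replicate_zero (x : R) : ∀ n, ev x (List.replicate n (0 : ℤ)) = 0
  | 0 => by simp [ev]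
  | n + 1 => by simp [List.replicate_succ, ev, ev_replicate_zero x n]

theorem l1_append : ∀ a b : List ℤ, l1 (a ++ b) = l1 a + l1 b
  | [], b => by simp [l1]
  | c :: cs, b => by simp [l1, l1_append cs b, add_assoc]

theorem l1_replicate_zero : ∀ n, l1 (List.replicate n (0 : ℤ)) = 0
  | 0 => rfl
  | n + 1 => by simp [List.replicate_succ, l1, l1_replicate_zero n]

theorem ev_flat (x : R) {n : ℕ} : ∀ {c}, Short n c → ev x (flat n c) = ev2 (x ^ n) x c
  | [], _ => by simp [flat, ev, ev2]
  | c :: cs, h => by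
    simp only [flat, ev2, ev_append, ev_replicate_zero, List.length_replicate, zero_add,
      ev_flat x (c := cs) (fun l hl => h l (by simp [hl]))]
    rw [← mul_assoc, ← pow_add, Nat.add_sub_cancel' (h c (by simp))]

theorem l1_flat (n : ℕ) : ∀ c, l1 (flat n c) = l12 c
  | [] => rfl
  | c :: cs => by simp [flat, l12, l1_append, l1_replicate_zero, l1_flat n cs]

theorem ev_pos {c : List ℤ} (h : ∀ x ∈ c, 0 ≤ x) {X : ℝ} (hX : 0 ≤ X) : 0 ≤ ev X c := by
  induction c with
  | nil => simp [ev]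
  | cons a as ih =>
    simp only [ev]
    have h1 := ih fun x hx => h x (by simp [hx])
    have h2 : (0 : ℝ) ≤ a := by exact_mod_cast h a (by simp)
    positivity

theorem ev2_pos {n : ℕ} : ∀ {c}, (∀ x ∈ flat n c, 0 ≤ x) → ∀ {X W : ℝ}, 0 ≤ X → 0 ≤ W →
    0 ≤ ev2 X W c
  | [], _, _, _, _, _ => by simp [ev2]
  | c :: cs, h, X, W, hX, hW => by
    have h1 := ev2_pos (n := n) (c := cs) (fun x hx => h x (by simp [flat, hx])) hX hW
    have h2 := ev_pos (c := c) (fun x hx => h x (by simp [flat, hx])) hW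
    simp only [ev2]
    positivity

/-- The sign bits of the digits below the degree bound `D`. -/
def mask (B : ℕ) : ℕ → ℕ
  | 0 => 2 ^ (B - 1)
  | D + 1 => mask B D ||| 2 ^ (B * (D + 1) + (B - 1))

/-- All coefficients are nonnegative and the constant one is positive; `M` is the mask, `T` the bound. -/
def PK.posWith (B M T : ℕ) (a : PK) : Bool :=
  Nat.ble a.q a.p && Nat.blt a.n (2 ^ (B - 1)) && Nat.blt (Nat.sub a.p a.q) T &&
    Nat.beq (Nat.land (Nat.sub a.p a.q) M) 0 && !(Nat.beq (Nat.mod (Nat.sub a.p a.q) (2 ^ B)) 0)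

theorem mask_testBit (B : ℕ) : ∀ D i, i ≤ D → (mask B D).testBit (B * i + (B - 1)) = true
  | 0, i, h => by
    obtain rfl : i = 0 := by omega
    simp [mask]
  | D + 1, i, h => by
    rw [mask, Nat.testBit_or]
    rcases Nat.lt_or_ge i (D + 1) with h' | h'
    · rw [mask_testBit B D i (by omega)]; rfl
    · obtain rfl : i = D + 1 := by omega
      simp

theorem coeffs_nonneg {B : ℕ} (hB : 1 ≤ B) :
    ∀ (c : List ℤ) (v : ℕ), ev ((2 : ℤ) ^ B) c = (v : ℤ) → l1 c < 2 ^ (B - 1) →
      (∀ i, v.testBit (B * i + (B - 1)) = false) →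
      (∀ x ∈ c, 0 ≤ x) ∧ (∀ X : ℝ, 0 ≤ X → ((v % 2 ^ B : ℕ) : ℝ) ≤ ev X c)
  | [], v, h, _, _ => by
    simp only [ev] at h
    obtain rfl : v = 0 := by exact_mod_cast h.symm
    simp [ev]
  | c0 :: cs, v, h, hl, hbit => by
    simp only [ev, Int.cast_id] at h
    simp only [l1] at hl
    have e2 : 2 ^ B = 2 * 2 ^ (B - 1) := by
      obtain ⟨C, rfl⟩ := Nat.exists_eq_add_of_le hB
      rw [Nat.add_sub_cancel_left, pow_add, pow_one]
    have hlow : v % 2 ^ B < 2 ^ (B - 1) := by
      refine Nat.lt_pow_two_of_testBit _ fun i hi => ?_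
      rw [Nat.testBit_mod_two_pow]
      rcases Nat.lt_or_ge i B with h' | h'
      · obtain rfl : i = B - 1 := by omega
        have := hbit 0
        simp only [mul_zero, zero_add] at this
        simp [this]
      · simp [Nat.not_lt.2 h']
    set w := ev ((2 : ℤ) ^ B) cs with hw
    have hv : (v : ℤ) = ((v % 2 ^ B : ℕ) : ℤ) + (2 : ℤ) ^ B * ((v / 2 ^ B : ℕ) : ℤ) := by
      exact_mod_cast (Nat.mod_add_div v (2 ^ B)).symm
    have hc : (c0.natAbs : ℤ) < (2 ^ (B - 1) : ℕ) := by exact_mod_cast (by omega : c0.natAbs < 2 ^ (B - 1))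
    have hm : ((v % 2 ^ B : ℕ) : ℤ) < (2 ^ (B - 1) : ℕ) := by exact_mod_cast hlow
    have eX : (2 : ℤ) ^ B = 2 * (2 ^ (B - 1) : ℕ) := by exact_mod_cast e2
    have hdiff : c0 = ((v % 2 ^ B : ℕ) : ℤ) := by
      have hd : c0 - ((v % 2 ^ B : ℕ) : ℤ) = (2 : ℤ) ^ B * (((v / 2 ^ B : ℕ) : ℤ) - w) := by
        rw [mul_sub]; linarith
      have habs : |c0 - ((v % 2 ^ B : ℕ) : ℤ)| < (2 : ℤ) ^ B := by
        rw [eX, abs_lt]
        constructor <;> omega
      have := Int.eq_zero_of_abs_lt_dvd ⟨_, hd⟩ habs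
      omega
    have hwv : w = ((v / 2 ^ B : ℕ) : ℤ) := by
      have h' : (2 : ℤ) ^ B * w = (2 : ℤ) ^ B * ((v / 2 ^ B : ℕ) : ℤ) := by linarith
      exact mul_left_cancel₀ (by positivity) h'
    obtain ⟨ih, ih2⟩ := coeffs_nonneg hB cs (v / 2 ^ B) hwv (by omega) fun i => by
      rw [Nat.testBit_div_two_pow]
      have := hbit (i + 1)
      rwa [mul_add, mul_one, add_right_comm] at this
    refine ⟨List.forall_mem_cons.2 ⟨by rw [hdiff]; positivity, ih⟩, fun X hX => ?_⟩
    have hpos : (0 : ℝ) ≤ ev X cs := le_trans (Nat.cast_nonneg _) (ih2 X hX)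
    have hc0 : (c0 : ℝ) = ((v % 2 ^ B : ℕ) : ℝ) := by rw [hdiff]; push_cast; rfl
    simp only [ev]
    nlinarith [mul_nonneg hX hpos, hc0]

/-- A passed test makes the represented function positive on `[0, ∞)`. -/
theorem Rep.pos {D : ℕ} (hB : 1 ≤ B) (hi : i < S) (ha : Rep B S i a f)
    (h : a.posWith B (mask B D) (2 ^ (B * (D + 1))) = true) {X W : ℝ} (hX : 0 ≤ X) (hW : 0 ≤ W) :
    0 < f X W := by
  simp only [PK.posWith, Bool.and_eq_true, decide_eq_true_eq, Nat.blt_eq, Nat.beq_eq,
    Bool.not_eq_true'] at h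
  obtain ⟨⟨⟨⟨h0', hn⟩, hT⟩, hM⟩, hc⟩ := h
  rw [Nat.ble_eq] at h0'
  have h0 : 0 ≤ a.v := by simp only [PK.v]; omega
  have e0 : Nat.sub a.p a.q = a.v.toNat := by
    show a.p - a.q = _
    simp only [PK.v]; omega
  rw [e0] at hT hM hc
  obtain ⟨c, h0', h1, h2, h3⟩ := ha
  have hS : Short S c := fun l hl => (h0' l hl).trans hi
  rw [pow_mul, ← ev_flat _ hS] at h1
  rw [← l1_flat S] at h2
  set v := a.v.toNat with hv
  have hbit : ∀ i, v.testBit (B * i + (B - 1)) = false := by
    intro i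
    rcases Nat.lt_or_ge D i with hi | hi
    · refine Nat.testBit_lt_two_pow (hT.trans_le (Nat.pow_le_pow_right (by norm_num) ?_))
      have : B * (D + 1) ≤ B * i := Nat.mul_le_mul_left B hi
      omega
    · have := congrArg (fun n => n.testBit (B * i + (B - 1))) (show v &&& mask B D = 0 from hM)
      simpa [Nat.testBit_and, mask_testBit B D i hi] using this
  obtain ⟨hn', h4⟩ := coeffs_nonneg hB (flat S c) v (by rw [h1, hv, Int.toNat_of_nonneg h0])
    (h2.trans_lt hn) hbit
  have hpos : 0 < v % 2 ^ B := by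
    rcases Nat.eq_zero_or_pos (v % 2 ^ B) with e | e
    · simp [show Nat.mod v (2 ^ B) = v % 2 ^ B from rfl, e] at hc
    · exact e
  have hp := lt_of_lt_of_le (Nat.cast_pos.2 hpos) (h4 0 le_rfl)
  rw [← h3 X W hX hW]
  rcases c with _ | ⟨c0, cs⟩
  · simp [flat, ev] at hp
  rcases c0 with _ | ⟨a0, as⟩
  · exfalso
    have e : S - ([] : List ℤ).length = (S - 1) + 1 := by simp; omega
    simp only [flat, List.nil_append, e, List.replicate_succ, List.cons_append, ev] at hp
    simp at hp
  simp only [flat, List.cons_append, ev, zero_mul, add_zero] at hp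
  have h5 := ev2_pos (n := S) (c := cs) (fun x hx => hn' x (by simp [flat, hx])) hX hW
  have h6 := ev_pos (c := as) (fun x hx => hn' x (by simp [flat, hx])) hW
  simp only [ev2, ev]
  positivity

/-- Sylvester: three positive minors make a quadratic in `(1, x, t)` nonnegative. -/
theorem quad_nonneg {m00 m01 m02 m11 m12 m22 : ℝ} (h1 : 0 < m22) (h2 : 0 < m22 * m11 - m12 ^ 2)
    (h3 : 0 < m00 * (m22 * m11 - m12 ^ 2) - m01 * (m01 * m22 - m12 * m02) +
      m02 * (m01 * m12 - m11 * m02)) (x t : ℝ) :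
    0 ≤ m00 + 2 * m01 * x + 2 * m02 * t + m11 * x ^ 2 + 2 * m12 * x * t + m22 * t ^ 2 := by
  set Q := m00 + 2 * m01 * x + 2 * m02 * t + m11 * x ^ 2 + 2 * m12 * x * t + m22 * t ^ 2
  set S := m22 * m11 - m12 ^ 2
  set T := m01 * m22 - m12 * m02
  have e : m22 * (S * Q) = S * (m22 * t + m12 * x + m02) ^ 2 + (S * x + T) ^ 2 +
      m22 * (m00 * S - m01 * T + m02 * (m01 * m12 - m11 * m02)) := by
    simp only [Q, S, T]; ring
  have h4 : 0 ≤ m22 * (S * Q) := by
    rw [e]
    have := mul_nonneg h2.le (sq_nonneg (m22 * t + m12 * x + m02))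
    have := sq_nonneg (S * x + T)
    have := mul_nonneg h1.le h3.le
    linarith
  have h5 := nonneg_of_mul_nonneg_right h4 h1
  exact nonneg_of_mul_nonneg_right h5 h2

-- the bodies are for the kernel only; the elaborator uses the `_v` and `_n` lemmas
attribute [irreducible] PK.add PK.sub PK.mul PK.smul

end Vale.Agent.P237.All.Finite
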