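import Vale.Agent.P237.All.Finite.Sound
import Vale.Agent.P237.All.Finite.Fast.Cell

/-!
P237, finitely many dimensions: passed cells that join up give the bound on their range of `k`.
-/

noncomputable section

open Real

namespace Vale.Agent.P237.All.Finite

open Transport Transport.Finite

/-- The bound at every excess in `[a, b)`, in dimension `p + 1`. -/
def RangeOk (p : ℕ) (a b : ℚ) : Prop :=
  ∀ k : ℝ, (a : ℝ) ≤ k → k < (b : ℝ) →
    HasBound p (exp (k / ((p : ℝ) + 1)) * (2 * mass (p + 1) semi 1))

/-- A passed cell. -/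
theorem rangeOk_cell {C : Cell} {p : ℕ} {a b : ℚ} (h : cellTest C = true) (hp : C.K.p = p)
    (ha : C.kA ≤ a) (hb : b ≤ C.kB) (hp1 : 1 ≤ p) : RangeOk p a b := by
  intro k h0 h1
  have a' : (C.kA : ℝ) ≤ a := by exact_mod_cast ha
  have b' : (b : ℝ) ≤ C.kB := by exact_mod_cast hb
  have hc := hasCert_cell C h (k := k) ⟨a'.trans h0, h1.trans_le b'⟩
  rw [hp] at hc
  exact hc.hasBound hp1

/-- Ranges that join up. -/
theorem RangeOk.append {p : ℕ} {a b c : ℚ} (h : RangeOk p a b) (h' : RangeOk p b c) : RangeOk p a c :=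
  fun k h0 h1 => (lt_or_ge k (b : ℝ)).elim (fun hb => h k h0 hb) fun hb => h' k hb h1

/-- The cells are those of `p` and join up from `a` to at least `b`. -/
def chainTest (p : ℕ) : ℚ → ℚ → List Cell → Bool
  | a, b, [] => decide (b ≤ a)
  | a, b, C :: l => decide (C.K.p = p) && decide (C.kA ≤ a) && chainTest p C.kB b l

/-- Passed cells that join up. -/
theorem rangeOk_cells {p : ℕ} (hp : 1 ≤ p) {b : ℚ} :
    ∀ {l : List Cell} {a : ℚ}, (∀ C ∈ l, cellTest C = true) → chainTest p a b l = true → RangeOk p a b
  | [], a, _, hc => fun k h0 h1 => by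
    simp only [chainTest, decide_eq_true_eq] at hc
    have : (b : ℝ) ≤ a := by exact_mod_cast hc
    linarith
  | C :: l, a, hl, hc => by
    simp only [chainTest, Bool.and_eq_true, decide_eq_true_eq] at hc
    obtain ⟨⟨hCp, hA⟩, hr⟩ := hc
    exact (rangeOk_cell (hl C (by simp)) hCp hA le_rfl hp).append
      (rangeOk_cells hp (fun D hD => hl D (by simp [hD])) hr)

/-- The test of ten pieces from the `10 i`-th on, in the form the kernel runs (`Fast`). -/
def chunkTest (C : Cell) (i : ℕ) : Bool :=
  (Msk.of C.B C.K.N).strict fun m => ((C.pieces.drop (10 * i)).take 10).all (pieceFullF C m)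

/-- A cell tested in parts, each in a theorem of its own. -/
theorem cellTest_of_chunks {C : Cell} (n : ℕ) (hn : C.pieces.length ≤ 10 * n)
    (h0 : headTest C = true) (h : ∀ i < n, chunkTest C i = true) : cellTest C = true := by
  simp only [cellTest, Msk.strict_eq, h0, Bool.true_and, List.all_eq_true]
  intro P hP
  obtain ⟨j, hj, rfl⟩ := List.mem_iff_getElem.1 hP
  have hi := h (j / 10) (by omega)
  simp only [chunkTest, Msk.strict_eq, List.all_eq_true] at hi
  refine pieceFullF_le (hi _ (List.mem_iff_getElem.2 ⟨j % 10, ?_, ?_⟩))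
  · simp only [List.length_take, List.length_drop]; omega
  · simp only [List.getElem_take, List.getElem_drop]
    congr 1; omega

end Vale.Agent.P237.All.Finite
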