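import Vale.Agent.P237.All.Finite.Sound.Budget
import Vale.Agent.P237.All.Bounds

/-!
P237, finitely many dimensions: a passed cell gives certificates on its range of `k`.
-/

noncomputable section

open MeasureTheory Set Real intervalIntegral

namespace Vale.Agent.P237.All.Finite

open Transport Transport.Finite

theorem massQ_pos {piB : ℚ} (h : 0 < piB) : ∀ n : ℕ, 0 < massQ piB n
  | 0 => by simp [massQ]
  | 1 => by simp only [massQ]; positivity
  | n + 2 => by have := massQ_pos h n; simp only [massQ]; positivity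

theorem kc_sound {C : Cell} (h : kcTest C = true) :
    3 ≤ C.K.p ∧ 1 ≤ C.K.N ∧ 0 < C.K.U ∧ 0 < C.Q ∧ 1 ≤ (C.be : ℝ) / C.K.U ∧
      C.K.Ok ((C.be : ℝ) / C.K.U) := by
  simp only [kcTest, Bool.and_eq_true, decide_eq_true_eq] at h
  obtain ⟨⟨⟨⟨⟨⟨⟨⟨⟨⟨⟨⟨hp, hN⟩, hU⟩, hb⟩, hQ⟩, g0⟩, g1⟩, g2⟩, g3⟩, g4⟩, g5⟩, g6⟩, g7⟩ := h
  have hU' : (0 : ℝ) < C.K.U := by exact_mod_cast hU
  have f1 := congrArg (Int.cast (R := ℝ)) g1
  have f2 := congrArg (Int.cast (R := ℝ)) g2
  have f3 := congrArg (Int.cast (R := ℝ)) g3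
  have f4 := congrArg (Int.cast (R := ℝ)) g4
  have f5 := congrArg (Int.cast (R := ℝ)) g5
  have f6 := congrArg (Int.cast (R := ℝ)) g6
  have f7 := congrArg (Int.cast (R := ℝ)) g7
  have f0 := congrArg (Int.cast (R := ℝ)) g0
  push_cast at f0 f1 f2 f3 f4 f5 f6 f7
  refine ⟨hp, hN, hU, hQ, ?_, ?_, ?_, ?_, ?_, ?_, ?_, ?_, ?_⟩
  · rw [le_div_iff₀ hU', one_mul]; exact_mod_cast hb
  · rw [f0]; field_simp
  · rw [f1]; simp only [cc]; field_simp
  · rw [f1] at f2; refine mul_right_cancel₀ hU'.ne' ?_; rw [f2]; simp only [cc]; field_simp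
  · rw [f1] at f3; refine mul_right_cancel₀ hU'.ne' ?_; rw [f3]; simp only [cc]; field_simp
  · rw [f1] at f4; refine mul_right_cancel₀ hU'.ne' ?_; rw [f4]; simp only [k0, cc]; field_simp
  · rw [f1] at f5; refine mul_right_cancel₀ hU'.ne' ?_; rw [f5]; simp only [k1, cc]; field_simp
  · rw [f1] at f6; refine mul_right_cancel₀ hU'.ne' ?_; rw [f6]; simp only [k2, cc]; field_simp
  · rw [f1] at f7; refine mul_right_cancel₀ hU'.ne' ?_; rw [f7]; simp only [k3, cc]; field_simp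

theorem bracket_mono {p be z δ τ R1 R2 : ℝ} (P : Par) {c2 : ℝ} (ho : P.o = 1) (hg : 0 ≤ P.g)
    (hδ : 0 ≤ 1 + δ) (hc : P.c2 ≤ c2) :
    bracket p be z { P with c2 := c2 } δ τ R1 R2 ≤ bracket p be z P δ τ R1 R2 := by
  simp only [bracket, c00, cd, ct, cdt, ctt, zc, gterm, ho]
  nlinarith only [mul_le_mul_of_nonneg_left hc (mul_nonneg hg hδ)]

/-- The coefficient of the potential at `(z, w)`. -/
theorem polyAt_hasDerivAt (U : ℤ) (w z : ℝ) (a b : List ℤ) :
    HasDerivAt (fun z => polyAt U w z a b) (polyAt U w z (dlist a) (dlist b)) z := by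
  simp only [polyAt]
  exact ((((ev_hasDerivAt a z).1.const_mul (1 - w)).add ((ev_hasDerivAt b z).1.const_mul w)).div_const _)

/-- A passed cell gives certificates at every `k` of its range. -/
theorem hasCert_cell (C : Cell) (h : cellTest C = true) {k : ℝ}
    (hk : k ∈ Ico (C.kA : ℝ) (C.kB : ℝ)) :
    HasCert C.K.p (exp (k / ((C.K.p : ℝ) + 1)) * (2 * mass (C.K.p + 1) semi 1)) := by
  simp only [cellTest, headTest, Msk.strict_eq, Bool.and_eq_true, decide_eq_true_eq,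
    List.all_eq_true] at h
  obtain ⟨⟨⟨⟨⟨⟨⟨⟨⟨⟨⟨⟨hkc, hB⟩, he0⟩, he1⟩, hAB⟩, hP0⟩, hP1⟩, hP2⟩, hcov⟩, hc0⟩, hc1⟩, hc2t⟩, hpieces⟩ := h
  obtain ⟨hp3, hN, hU, hQ, hbe, hK⟩ := kc_sound hkc
  have h0 := endTest_sound hU he0
  have h1 := endTest_sound hU he1
  set be := (C.be : ℝ) / C.K.U with hbed
  set p := C.K.p with hp
  -- the position in the cell
  have hAB' : (C.kA : ℝ) < C.kB := by exact_mod_cast hAB
  set w := (k - C.kA) / (C.kB - C.kA) with hwd
  have hw : w ∈ Ico (0 : ℝ) 1 :=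
    ⟨div_nonneg (sub_nonneg.2 hk.1) (sub_pos.2 hAB').le,
      (div_lt_one (sub_pos.2 hAB')).2 (by linarith [hk.2])⟩
  have hwI := Ico_subset_Icc_self hw
  have hkw : k = (1 - w) * (C.kA : ℝ) + w * C.kB := by
    have : w * ((C.kB : ℝ) - C.kA) = k - C.kA := div_mul_cancel₀ _ (sub_pos.2 hAB').ne'
    linarith
  obtain ⟨-, hlamk, -, hc2w, hg0, hell0, -⟩ := ends_sound (k := k) hU h0 h1 hwI hkw (le_refl (1 : ℝ))
    (by rw [one_pow]; exact Real.one_le_exp (div_nonneg (h0.hk.trans hk.1) (by positivity)))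
  -- the pieces
  have hsize : ∀ P ∈ C.pieces, PieceSize C P := fun P hP => by
    have := hpieces P hP
    simp only [pieceFullTest, Ctx.strict_eq, Bool.and_eq_true] at this
    exact pieceSize_of this.1
  obtain ⟨ε, hε, hneg⟩ := budget (w := w) hU hQ (by omega) hwI hsize hc0 hc1 hc2t
  set Fz := fun z : ℝ => polyAt C.K.U w z C.e0.F C.e1.F with hFz
  set Fd := fun z : ℝ => polyAt C.K.U w z (dlist C.e0.F) (dlist C.e1.F) with hFd
  set Hz := fun z : ℝ => polyAt C.K.U w z C.e0.H C.e1.H with hHz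
  set Hd := fun z : ℝ => polyAt C.K.U w z (dlist C.e0.H) (dlist C.e1.H) with hHd
  have hder : ∀ (G Gd : ℝ → ℝ), (∀ z, HasDerivAt G (Gd z) z) → ∀ y : ℝ,
      HasDerivAt (fun y => (1 - y ^ 2) * G (y ^ 2)) (2 * y * ((1 - y ^ 2) * Gd (y ^ 2) - G (y ^ 2))) y := by
    intro G Gd hG y
    refine (((hasDerivAt_pow 2 y).const_sub 1).mul ((hG (y ^ 2)).comp y (hasDerivAt_pow 2 y))).congr_deriv ?_
    simp only [Function.comp_apply]
    push_cast
    ring
  have hA := hder Fz Fd fun z => polyAt_hasDerivAt _ w z _ _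
  have hW := hder Hz Hd fun z => polyAt_hasDerivAt _ w z _ _
  refine ⟨0, lin2 C.K.U w C.e0.g C.e1.g, 1, le_rfl, hg0, zero_le_one, ⟨{
    β := be
    ell := lin2 C.K.U w C.e0.ell C.e1.ell
    ell_nonneg := hell0
    V := potF p (fun y => (1 - y ^ 2) * Fz (y ^ 2)) (fun y => (1 - y ^ 2) * Hz (y ^ 2))
    Vy := potFY p (fun y => (1 - y ^ 2) * Fz (y ^ 2))
      (fun y => 2 * y * ((1 - y ^ 2) * Fd (y ^ 2) - Fz (y ^ 2)))
      (fun y => (1 - y ^ 2) * Hz (y ^ 2))
      (fun y => 2 * y * ((1 - y ^ 2) * Hd (y ^ 2) - Hz (y ^ 2)))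
    Vt := potFT p (fun y => (1 - y ^ 2) * Fz (y ^ 2)) (fun y => (1 - y ^ 2) * Hz (y ^ 2))
    Pi := piFun C w ε
    chain := fun Z Z' t _ hy hZ => potF_chain _ _ _ _ (fun y _ => hA y) (fun y _ => hW y) Z Z' t hy hZ
    along := fun Z hZ h0 hα h1 => potF_along _ _
      (fun y _ => (hA y).continuousAt.continuousWithinAt)
      (fun y _ => (hW y).continuousAt.continuousWithinAt) Z hZ h0 hα h1
    V_zero := potF_zero _ _
    V_one := potF_one _ _
    Pi_cont := (piFun_continuous ε).continuousOn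
    Pi_neg := hneg
    point := ?_ }⟩⟩
  intro y hy t ht r lam hr hlam hlp hridge hreach hfwd hback _
  have hM := mass_one_pos isProfile_semi (p + 1)
  have hpow : lam ^ (p + 1) ≤ exp (k / ((p : ℝ) + 1)) := le_of_mul_le_mul_right hlp (by positivity)
  obtain ⟨P, hP, hyP⟩ := cover_mem hQ C.pieces 0 hcov y (by simpa using hy.1.le) hy.2
  have hfull := hpieces P hP
  simp only [pieceFullTest, Ctx.strict_eq, Bool.and_eq_true] at hfull
  obtain ⟨hpt', htree⟩ := hfull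
  have hbasic : PieceBasic C P :=
    ⟨hU, hQ, hN, h0.hF, h1.hF, h0.hH, h1.hH, hP0, hP1, hP2, (hsize P hP).hY0, (hsize P hP).hY⟩
  have hpt := piece_pt hbasic hp3 h0 h1 (massQ_le p).2 (massQ_le (p + 1)).1
    (massQ_pos (by norm_num) _) hpt' hw hkw hy hyP ht hr hlam hpow hridge hreach hfwd hback
  have hL : 0 < C.e0.L2 ∧ 0 < C.e1.L2 := by
    have hU' : (0 : ℝ) < C.K.U := by exact_mod_cast hU
    constructor
    · exact_mod_cast (show (0 : ℝ) < C.e0.L2 from
        (div_pos_iff_of_pos_right hU').1 ((exp_pos _).trans_le h0.hL2))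
    · exact_mod_cast (show (0 : ℝ) < C.e1.L2 from
        (div_pos_iff_of_pos_right hU').1 ((exp_pos _).trans_le h1.hL2))
  have hroot : InBox C P (rootBox C.K.U P) (y ^ 2) w (r - 1) (t / y - 1) := by
    have hU' : (0 : ℝ) < C.K.U := by exact_mod_cast hU
    refine ⟨?_, ?_, ?_, fun h e => by simp [rootBox] at e⟩
    · cases hb : P.back
      · simp only [rootBox, hb, Bool.false_eq_true, if_false]
        push_cast
        rw [neg_div, div_self hU'.ne']
        exact hpt.hτ.le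
      · simp only [rootBox, hb, if_true]
        exact hpt.hback hb
    · simpa [rootBox] using hpt.hbb
    · simp only [rootBox]
      push_cast
      rw [neg_div, div_self hU'.ne']
      exact hpt.hδ.le
  have hb := tree_sound hbasic hB hp3 hbe hK hL hpt P.tree _ hroot htree
  refine le_trans ?_ (piFun_ge hU hQ hp3 hwI hε hsize hP hyP)
  refine le_trans (le_of_eq (density_bracket p _ _ lam _ be Fz Fd Hz Hd hy hr)) ?_
  set c2 := (exp (k / ((p : ℝ) + 1)) * (2 * mass (p + 1) semi 1) /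
    ∫ s in (-1 : ℝ)..1, semi s ^ (p + 1)) ^ (2 / ((p : ℝ) + 2)) with hc2
  have hc2' : 1 + 2 * k / (((p : ℝ) + 1) * ((p : ℝ) + 2)) ≤ c2 := by
    rw [hc2, Transport.integral_even isProfile_semi (p + 1), mul_div_cancel_right₀ _ (by positivity : (2 * mass (p + 1) semi 1) ≠ 0),
      ← Real.exp_mul]
    refine le_trans (le_of_eq ?_) (Real.add_one_le_exp _)
    field_simp
    ring
  have hS : semi y ^ (p + 1) = semi y ^ (p - 1) * (1 - y ^ 2) := by
    rw [show p + 1 = p - 1 + 2 by omega, pow_add, semi_sq ⟨by linarith [hy.1], hy.2.le⟩]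
  rw [hS, mul_assoc]
  refine mul_le_mul_of_nonneg_left ?_ (pow_nonneg (Real.sqrt_nonneg _) _)
  refine le_trans (mul_le_mul_of_nonneg_left ?_ (by linarith [hpt.hz1])) hb
  have hm := bracket_mono (p := (p : ℝ)) (be := be) (z := y ^ 2) (δ := r - 1) (τ := t / y - 1)
    (R1 := (1 + (r - 1)) ^ (p + 1) - 1 - ((p : ℝ) + 1) * (r - 1))
    (R2 := ((1 + (r - 1)) ^ p)⁻¹ - 1 + (p : ℝ) * (r - 1))
    (parHat C P Aux.zero (y ^ 2) w) rfl hg0 (by linarith) (hc2w.trans hc2')
  refine le_of_eq_of_le ?_ hm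
  rw [show (1 : ℝ) + (r - 1) = r by ring]
  rfl

end Vale.Agent.P237.All.Finite
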